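import Crest.Agent.R286.LD

/-!
# The scheduling algorithm and its running time
-/

set_option autoImplicit false

namespace Crest.Agent.R286

open Crest.Agent.Lib.PolyTime

/-- Jobs are numbers in unary. -/
abbrev J : Type := List Unit

/-! ### Definitions -/

/-- Skip one digit of the code of a natural number. -/
def skip2 (s : List Bool) : List Bool := bif s.headD false then s.tail.tail else s

/-- The input without the leading code of a natural number. -/
def tblOf (x : List Bool) : List Bool := (x.foldl (fun s _ => skip2 s) x).tail.tail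

/-- One round of the square-root computation. -/
def sqStep (st : List Bool × J) : List Bool × J :=
  bif st.1.isEmpty then st else (dropLen st.1 (() :: (st.2 ++ st.2)), () :: st.2)

/-- Square root of the length, in unary. -/
def sqrtU (w : List Bool) : J := (w.foldl (fun st _ => sqStep st) (w, [])).2

/-- The numbers below the length of `N`, in unary. -/
def rangeU (N : J) : List J :=
  (N.foldl (fun (st : J × List J) _ => (() :: st.1, st.1 :: st.2)) ([], [])).2.reverse

/-- The pairs marked in the table. -/
def edges (P : List (J × J)) (w : List Bool) : List (J × J) :=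
  ((P.zip w).filter fun q => q.2).map fun q => q.1

/-- One round of Warshall's algorithm. -/
def wStep (P R : List (J × J)) (z : J) : List (J × J) :=
  P.filter fun p => decide (p ∈ R) || (decide ((p.1, z) ∈ R) && decide ((z, p.2) ∈ R))

/-- Transitive closure. -/
def closure (V : List J) (P R : List (J × J)) : List (J × J) := V.foldl (wStep P) R

/-- The predecessors of a job. -/
def preds (U : List J) (R : List (J × J)) (x : J) : List J := U.filter fun y => decide ((y, x) ∈ R)

/-- The position of `x` relative to `e`. -/
def ty (U : List J) (R : List (J × J)) (x e : J) : List Bool :=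
  [decide ((x, e) ∈ R), decide ((e, x) ∈ R), lenLt (preds U R x) (preds U R e),
    lenLt (preds U R e) (preds U R x), lenLt x e, lenLt e x]

/-- All lists of length `k` over `U`. -/
def tuples {β : Type} (U : List β) : ℕ → List (List β)
  | 0 => [[]]
  | k + 1 => (prodL U (tuples U k)).map fun p => p.1 :: p.2

/-- The set of jobs whose positions relative to a tuple lie in a given list. -/
def setOf' (U : List J) (R : List (J × J)) (q : List J × List (List (List Bool))) : List J :=
  U.filter fun x => decide (q.1.map (ty U R x) ∈ q.2)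

/-- The first nonempty value. -/
def findL {β γ : Type} (l : List β) (f : β → List γ) : List γ :=
  List.casesOn (l.filter fun x => !(f x).isEmpty) [] fun x _ => f x

/-- Permutation test. -/
def permB (l m : List J) : Bool :=
  (l ++ m).all fun x =>
    !lenLt (l.filter fun y => decide (x = y)) (m.filter fun y => decide (x = y)) &&
      !lenLt (m.filter fun y => decide (x = y)) (l.filter fun y => decide (x = y))

/-- `S` fills one slot. -/
def tri (R : List (J × J)) (S : List J) : Bool :=
  lenLt S [(), (), (), ()] && lenLt [(), ()] S && S.all fun x => S.all fun y => !decide ((x, y) ∈ R)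

/-- `a` followed by `b` schedules `S`. -/
def okB (R : List (J × J)) (a b : List (List J)) (S : List J) : Bool :=
  permB (a ++ b).flatten S && !lenLt S (a ++ b) &&
    a.flatten.all fun x => b.flatten.all fun y => !decide ((y, x) ∈ R)

/-- A schedule of `S` obtained from the known schedules `K`, if there is one. -/
def cand (R : List (J × J)) (K : List (List (List J))) (S : List J) : List (List (List J)) :=
  bif S.isEmpty then [[]] else bif tri R S then [[S]] else
    findL K fun a => findL K fun b => bif okB R a b S then [a ++ b] else []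

/-- One round of the dynamic program. -/
def dpStep (R : List (J × J)) (F : List (List J)) (K : List (List (List J))) :
    List (List (List J)) := (F.map (cand R K)).flatten

/-- The dynamic program. -/
def dp (R : List (J × J)) (F : List (List J)) (U : List J) : List (List (List J)) :=
  ([] :: U).foldl (fun K _ => dpStep R F K) []

/-- The schedules containing all of `V`. -/
def covers (V : List J) (K : List (List (List J))) : List (List (List J)) :=
  K.filter fun s => V.all fun v => decide (v ∈ s.flatten)

/-- A shortest schedule. -/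
def shortest (K : List (List (List J))) : List (List J) :=
  (K.filter fun s => K.all fun t => !lenLt t s).headD []

/-- The number of the slot holding `v`, in unary. -/
def slotU (s : List (List J)) (v : J) : J :=
  (s.foldl (fun (st : Bool × J) T => bif st.1 then st else (decide (v ∈ T), () :: st.2))
    (false, [])).2

/-- Add a carry to a binary numeral. -/
def incC : Bool → List Bool → List Bool
  | c, [] => bif c then [true] else []
  | c, b :: t => xor c b :: incC (c && b) t

/-- The code of the length of a list. -/
def codeU (u : J) : List Bool :=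
  ((u.foldl (fun s _ => incC true s) []).map fun b => [true, b]).flatten ++ [false, false]

/-- The number of jobs. -/
def nOf (x : List Bool) : J := sqrtU (tblOf x)

/-- The jobs. -/
def VOf (x : List Bool) : List J := rangeU (nOf x)

/-- The jobs and twice as many dummy jobs. -/
def UOf (x : List Bool) : List J := rangeU (nOf x ++ nOf x ++ nOf x)

/-- The precedence order. -/
def ROf (x : List Bool) : List (J × J) :=
  closure (VOf x) (prodL (VOf x) (VOf x)) (edges (prodL (VOf x) (VOf x)) (tblOf x))

/-- The family of sets of jobs. -/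
def FOf (Φ : List (List (List (List Bool)))) (k : ℕ) (x : List Bool) : List (List J) :=
  (prodL (tuples (UOf x) k) Φ).map (setOf' (UOf x) (ROf x))

/-- The schedule. -/
def sOf (Φ : List (List (List (List Bool)))) (k : ℕ) (x : List Bool) : List (List J) :=
  shortest (covers (VOf x) (dp (ROf x) (FOf Φ k x) (UOf x)))

/-- The algorithm. -/
def alg (Φ : List (List (List (List Bool)))) (k : ℕ) (x : List Bool) : List Bool :=
  codeU (nOf x) ++ ((VOf x).map fun v => codeU (slotU (sOf Φ k x) v)).flatten

/-! ### Degrees of the components -/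

variable {D : ℕ}

theorem LD.left' {α β : Type*} [PEnc α] [PEnc β] {f : α → β} (h : LD D f) : CD D f := h.1

theorem sz_tail_le {β : Type*} [PEnc β] (l : List β) : sz l.tail ≤ sz l :=
  sz_le_of_sublist (List.tail_sublist l)

@[fun_prop] theorem ld_tblOf : LD (D + 1) tblOf := by
  unfold tblOf
  refine (LD.foldl_add (h := fun _ s _ => skip2 s) LD.id' LD.id' (by unfold skip2; fun_prop) 0
    fun _ s _ => ?_).tail.tail
  have := sz_tail_le s
  have := sz_tail_le s.tail
  unfold skip2
  cases s.headD false <;> simp; omega

@[fun_prop] theorem ld_sqrtU : LD (D + 2) sqrtU := by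
  unfold sqrtU
  refine (LD.foldl_add (h := fun _ st _ => sqStep st) LD.id' (by fun_prop)
    (by unfold sqStep; fun_prop) 1 fun _ st x => ?_).snd
  have h1 : sz (dropLen st.1 (() :: (st.2 ++ st.2))) ≤ sz st.1 :=
    sz_le_of_sublist (List.drop_sublist _ _)
  have h2 := one_le_sz x
  unfold sqStep
  cases st.1.isEmpty <;> simp [sz_prod st]; omega

@[fun_prop] theorem ld_nOf : LD (D + 2) nOf := by
  unfold nOf
  fun_prop

theorem rangeU_aux (N : J) (i : ℕ) (acc : List J) :
    N.foldl (fun (st : J × List J) _ => (() :: st.1, st.1 :: st.2)) (List.replicate i (), acc) =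
      (List.replicate (i + N.length) (),
        ((List.range' i N.length).map fun j => List.replicate j ()).reverse ++ acc) := by
  induction N generalizing i acc with
  | nil => simp
  | cons a N ih =>
    rw [List.foldl_cons, ← List.replicate_succ, ih]
    simp [List.range'_succ, Nat.add_assoc, Nat.add_comm 1]

theorem rangeU_eq (N : J) : rangeU N = (List.range N.length).map fun j => List.replicate j () := by
  have := rangeU_aux N 0 []
  simp only [List.replicate_zero] at this
  simp [rangeU, this, List.range_eq_range']

theorem sz_J (u : J) : sz u = 2 * u.length + 1 := by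
  induction u with
  | nil => rfl
  | cons a u ih => simp [ih]; omega

theorem sz_rangeU (N : J) : sz (rangeU N) ≤ sz N * (sz N + 1) + 1 := by
  refine (sz_list_le (B := sz N) fun u hu => ?_).trans ?_
  · rw [rangeU_eq] at hu
    obtain ⟨j, hj, rfl⟩ := List.mem_map.1 hu
    rw [List.mem_range] at hj
    simp only [sz_J, List.length_replicate]
    omega
  · rw [rangeU_eq, List.length_map, List.length_range]
    exact Nat.add_le_add_right (Nat.mul_le_mul_right _ (length_le_sz N)) _

theorem deg_rangeU : Deg 2 fun N => sz (rangeU N) :=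
  ((Deg.sz_id.mul (Deg.sz_id.add (Deg.const 1))).add (Deg.const 1)).mono sz_rangeU

theorem cd_rangeU : CD 3 rangeU := by
  have hB : Deg 2 fun N : J => sz N + (sz N * (sz N + 1) + 1) + 1 :=
    ((Deg.sz_id.up (by omega)).add
      ((Deg.sz_id.mul (Deg.sz_id.add (Deg.const 1))).add (Deg.const 1))).add (Deg.const 1)
  have key : ∀ N l₁ : J, l₁ <+: N →
      sz (l₁.foldl (fun (st : J × List J) _ => (() :: st.1, st.1 :: st.2)) ([], [])) ≤
        sz N + (sz N * (sz N + 1) + 1) + 1 := by
    intro N l₁ h
    have h1 := sz_rangeU l₁
    have h2 := sz_le_of_sublist h.sublist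
    have h3 : sz l₁ * (sz l₁ + 1) ≤ sz N * (sz N + 1) := Nat.mul_le_mul h2 (by omega)
    have h4 := rangeU_aux l₁ 0 []
    simp only [List.replicate_zero] at h4
    rw [rangeU, sz_reverse] at h1
    rw [sz_prod]
    have h5 : sz (l₁.foldl (fun (st : J × List J) _ => (() :: st.1, st.1 :: st.2)) ([], [])).1 =
        sz l₁ := by rw [h4]; simp [sz_J]
    omega
  have h1 : CD 3 fun N : J =>
      N.foldl (fun (st : J × List J) _ => (() :: st.1, st.1 :: st.2)) ([], []) :=
    CD.foldl (d := 0) (h := fun _ st _ => (() :: st.1, st.1 :: st.2)) LD.id'.1 (LD.const _).1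
      (LD.left' (by fun_prop)) hB (Deg.sz_id.up (by omega)) (by omega) (by omega) key
  exact CD.comp (d := 1) (e := 2) (f := fun st : J × List J => st.2.reverse)
    (LD.left' (by fun_prop)) h1 (hB.mono fun N => key N N List.prefix_rfl) (by omega)

@[fun_prop] theorem ld_edges : LD (D + 1) fun p : List (J × J) × List Bool => edges p.1 p.2 := by
  unfold edges
  refine LD.map_le (f := fun _ (q : (J × J) × Bool) => q.1) ?_ ?_ 1
    fun _ q => by simpa using sz_fst_le q
  · fun_prop
  · fun_prop

@[fun_prop] theorem ld_closure :
    LD (D + 4) fun p : List J × List (J × J) × List (J × J) => closure p.1 p.2.1 p.2.2 := by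
  unfold closure
  refine LD.foldl (h := fun (p : List J × List (J × J) × List (J × J)) R z => wStep p.2.1 R z)
    (by fun_prop) (by fun_prop) (LD.left' (by unfold wStep; fun_prop)) Deg.sz_id fun p l₁ _ => ?_
  rcases List.eq_nil_or_concat l₁ with rfl | ⟨l, z, rfl⟩
  · exact (sz_snd_le _).trans (sz_snd_le _)
  · rw [List.concat_eq_append, List.foldl_append]
    exact (sz_le_of_sublist List.filter_sublist).trans ((sz_fst_le _).trans (sz_snd_le _))

@[fun_prop] theorem ld_ty :
    LD (D + 3) fun p : List J × List (J × J) × J × J => ty p.1 p.2.1 p.2.2.1 p.2.2.2 := by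
  unfold ty preds
  fun_prop

theorem sz_ty (U : List J) (R : List (J × J)) (x e : J) : sz (ty U R x e) ≤ 25 :=
  (sz_listBool_le _).trans (by simp [ty])

@[fun_prop] theorem ld_setOf' : LD (D + 5)
    fun p : List J × List (J × J) × List J × List (List (List Bool)) => setOf' p.1 p.2.1 p.2.2 := by
  unfold setOf'
  refine LD.filter (by fun_prop) (LD.decide_mem ?_ (by fun_prop))
  refine LD.map_le (by fun_prop) (by fun_prop) 25 fun a x => (sz_ty _ _ _ _).trans ?_
  have := one_le_sz x
  omega

theorem mem_tuples {β : Type} {U : List β} {k : ℕ} {d : List β} :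
    d ∈ tuples U k ↔ d.length = k ∧ ∀ e ∈ d, e ∈ U := by
  induction k generalizing d with
  | zero =>
    simp only [tuples, List.mem_singleton, List.length_eq_zero_iff]
    exact ⟨fun h => by simp [h], fun h => h.1⟩
  | succ k ih =>
    simp only [tuples, List.mem_map, mem_prodL, ih]
    constructor
    · rintro ⟨⟨a, t⟩, ⟨h1, h2, h3⟩, rfl⟩
      simpa using ⟨h2, h1, h3⟩
    · rintro ⟨h1, h2⟩
      cases d with
      | nil => simp at h1
      | cons a t =>
        exact ⟨(a, t), ⟨h2 a (by simp), by simpa using h1, fun e he => h2 e (by simp [he])⟩, rfl⟩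

theorem length_prodL {β γ : Type*} (l : List β) (m : List γ) :
    (prodL l m).length = l.length * m.length := by
  simp [prodL, Function.comp_def]

theorem length_tuples {β : Type} (U : List β) (k : ℕ) : (tuples U k).length = U.length ^ k := by
  induction k with
  | zero => rfl
  | succ k ih => simp [tuples, length_prodL, ih, pow_succ']

theorem deg_tuples (k : ℕ) : Deg (k + 1) fun U : List J => sz (tuples U k) := by
  refine ((((Deg.sz_id.pow k).up (by omega : 1 * k ≤ k)).mul
    (((Deg.sz_id.add (Deg.const 1)).cmul k).add (Deg.const 2))).add (Deg.const 1)).mono fun U => ?_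
  refine (sz_list_le (B := k * (sz U + 1) + 1) fun d hd => ?_).trans ?_
  · obtain ⟨h1, h2⟩ := mem_tuples.1 hd
    exact h1 ▸ sz_list_le fun e he => sz_le_of_mem (h2 e he)
  · rw [length_tuples]
    exact Nat.add_le_add_right (Nat.mul_le_mul_right _ (Nat.pow_le_pow_left (length_le_sz U) _)) _

theorem enc_map_cons {β : Type} [PEnc β] (l : List (β × List β)) :
    enc (l.map fun p => p.1 :: p.2) = enc l := by
  induction l with
  | nil => rfl
  | cons x xs ih => simp [ih, enc_prod]

theorem cd_tuples (k : ℕ) : CD (21 * k) fun U : List J => tuples U k := by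
  induction k with
  | zero => exact (LD.const _).1
  | succ k ih =>
    refine (CD.comp (e := k + 1) cd_prodL (LD.id'.1.pair (ih.mono (by omega)))
      (((Deg.sz_id.up (by omega)).add (deg_tuples k)).add (Deg.const 1)) (by omega)).of_enc
      fun U => (enc_map_cons _).symm

@[fun_prop] theorem LD.findL {α β γ : Type} [PEnc α] [PEnc β] [PEnc γ] {l : α → List β}
    {f : α → β → List γ} (hl : LD (D + 1) l) (hf : LD D fun p : α × β => f p.1 p.2) :
    LD (D + 1) fun a => findL (l a) (f a) := by
  unfold R286.findL
  exact LD.listCasesOn (g := fun a x _ => f a x) (hl.filter hf.isEmpty.not) (LD.const _)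
    ((hf.mono (by omega)).comp (g := fun p : α × β × List β => (p.1, p.2.1)) (by fun_prop))

theorem findL_cases {β γ : Type} (l : List β) (f : β → List γ) :
    (findL l f = [] ∧ ∀ x ∈ l, f x = []) ∨ ∃ x ∈ l, findL l f = f x ∧ f x ≠ [] := by
  unfold findL
  cases h : l.filter fun x => !(f x).isEmpty with
  | nil => exact Or.inl ⟨rfl, by simpa using h⟩
  | cons x t =>
    have : x ∈ l.filter fun x => !(f x).isEmpty := by simp [h]
    exact Or.inr ⟨x, (List.mem_filter.1 this).1, rfl, by simpa using (List.mem_filter.1 this).2⟩

theorem mem_findL {β γ : Type} {l : List β} {f : β → List γ} {y : γ} (h : y ∈ findL l f) :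
    ∃ x ∈ l, findL l f = f x ∧ y ∈ f x := by
  rcases findL_cases l f with ⟨h1, -⟩ | ⟨x, hx, h1, -⟩
  · simp [h1] at h
  · exact ⟨x, hx, h1, h1 ▸ h⟩

theorem permB_iff {l m : List J} : permB l m = true ↔ l.Perm m := by
  have hc : ∀ (x : J) (l : List J), (l.filter fun y => decide (x = y)).length = l.count x := by
    intro x l
    rw [List.count, List.countP_eq_length_filter]
    congr 2
    funext y
    by_cases h : x = y
    · simp [h]
    · simp [h, Ne.symm h]
  simp only [permB, lenLt, hc, List.all_eq_true, Bool.and_eq_true, Bool.not_eq_true',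
    decide_eq_false_iff_not, List.perm_iff_count]
  constructor
  · intro h x
    by_cases hx : x ∈ l ++ m
    · have := h x hx
      omega
    · rw [List.mem_append, not_or] at hx
      rw [List.count_eq_zero_of_not_mem hx.1, List.count_eq_zero_of_not_mem hx.2]
  · intro h x _
    simp [h x]

@[fun_prop] theorem ld_okB : LD (D + 4)
    fun p : List (J × J) × List (List J) × List (List J) × List J =>
      okB p.1 p.2.1 p.2.2.1 p.2.2.2 := by
  unfold okB permB
  fun_prop

@[fun_prop] theorem ld_cand : LD (D + 6)
    fun p : List (J × J) × List (List (List J)) × List J => cand p.1 p.2.1 p.2.2 := by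
  unfold cand tri
  fun_prop

theorem sz_perm {β : Type*} [PEnc β] {l m : List β} (h : l.Perm m) : sz l = sz m := by
  rw [sz_list, sz_list, (h.map _).sum_eq]

theorem sz_eq_flatten {β : Type*} [PEnc β] (s : List (List β)) :
    sz s = sz s.flatten + 2 * s.length := by
  induction s with
  | nil => rfl
  | cons T s ih =>
    have := sz_append T s.flatten
    simp only [sz_cons, List.flatten_cons, List.length_cons]
    omega

theorem cand_cases (R : List (J × J)) (K : List (List (List J))) (S : List J) :
    (S = [] ∧ cand R K S = [[]]) ∨ (tri R S = true ∧ cand R K S = [[S]]) ∨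
      (∃ a ∈ K, ∃ b ∈ K, okB R a b S = true ∧ cand R K S = [a ++ b]) ∨
      (S ≠ [] ∧ tri R S = false ∧ (∀ a ∈ K, ∀ b ∈ K, okB R a b S = false) ∧ cand R K S = []) := by
  unfold cand
  by_cases h0 : S = []
  · exact Or.inl ⟨h0, by simp [h0]⟩
  have h0' : S.isEmpty = false := by simpa using h0
  cases h1 : tri R S with
  | true => exact Or.inr (Or.inl ⟨rfl, by simp [h0']⟩)
  | false =>
    refine Or.inr (Or.inr ?_)
    simp only [h0', cond_false]
    rcases findL_cases K fun a => findL K fun b => bif okB R a b S then [a ++ b] else [] with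
      ⟨h2, h3⟩ | ⟨a, ha, h2, h3⟩
    · refine Or.inr ⟨h0, trivial, fun a ha b hb => ?_, h2⟩
      rcases findL_cases K fun b => bif okB R a b S then [a ++ b] else [] with
        ⟨-, h5⟩ | ⟨b', -, h4, h5⟩
      · have := h5 b hb
        cases h : okB R a b S <;> simp_all
      · exact absurd (h4 ▸ h3 a ha) h5
    · rcases findL_cases K fun b => bif okB R a b S then [a ++ b] else [] with
        ⟨h4, -⟩ | ⟨b, hb, h4, h5⟩
      · exact absurd h4 h3
      · refine Or.inl ⟨a, ha, b, hb, ?_⟩
        rw [h2, h4]
        cases h : okB R a b S <;> simp_all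

theorem okB_iff {R : List (J × J)} {a b : List (List J)} {S : List J} :
    okB R a b S = true ↔ (a ++ b).flatten.Perm S ∧ (a ++ b).length ≤ S.length ∧
      ∀ x ∈ a.flatten, ∀ y ∈ b.flatten, (y, x) ∉ R := by
  simp only [okB, Bool.and_eq_true, permB_iff, lenLt, Bool.not_eq_true', decide_eq_false_iff_not,
    not_lt, List.all_eq_true, and_assoc]

theorem sz_cand (R : List (J × J)) (K : List (List (List J))) (S : List J) :
    sz (cand R K S) ≤ 5 * sz S := by
  have h0 := one_le_sz S
  rcases cand_cases R K S with ⟨-, h⟩ | ⟨-, h⟩ | ⟨a, -, b, -, h1, h⟩ | ⟨-, -, -, h⟩ <;> rw [h]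
  · simp; omega
  · simp; omega
  · obtain ⟨h2, h3, -⟩ := okB_iff.1 h1
    have h4 := sz_eq_flatten (a ++ b)
    have h5 := sz_perm h2
    have h6 := length_lt_sz S
    simp only [sz_cons, sz_nil]
    omega
  · simp; omega

theorem sz_dpStep (R : List (J × J)) (F : List (List J)) (K : List (List (List J))) :
    sz (dpStep R F K) ≤ 6 * sz F :=
  (sz_flatten_le _).trans (LD.sz_map_le fun S _ => sz_cand R K S)

@[fun_prop] theorem ld_dpStep : LD (D + 7)
    fun p : List (J × J) × List (List J) × List (List (List J)) => dpStep p.1 p.2.1 p.2.2 := by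
  unfold dpStep
  refine LD.flatten (LD.map_le
    (f := fun (p : List (J × J) × List (List J) × List (List (List J))) S => cand p.1 p.2.2 S)
    ?_ ?_ 5 fun _ S => sz_cand _ _ S)
  · fun_prop
  · fun_prop

@[fun_prop] theorem ld_dp : LD (D + 8)
    fun p : List (J × J) × List (List J) × List J => dp p.1 p.2.1 p.2.2 := by
  unfold dp
  refine LD.foldl (h := fun (p : List (J × J) × List (List J) × List J) K _ => dpStep p.1 p.2.1 K)
    (by fun_prop) (by fun_prop) (LD.left' (by fun_prop)) (Deg.sz_id.cmul 6) fun p l₁ _ => ?_
  · rcases List.eq_nil_or_concat l₁ with rfl | ⟨l, z, rfl⟩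
    · have := one_le_sz p
      simp; omega
    · rw [List.concat_eq_append, List.foldl_append]
      exact (sz_dpStep _ _ _).trans
        (Nat.mul_le_mul_left _ ((sz_fst_le _).trans (sz_snd_le _)))

@[fun_prop] theorem ld_covers : LD (D + 4)
    fun p : List J × List (List (List J)) => covers p.1 p.2 := by
  unfold covers
  fun_prop

@[fun_prop] theorem ld_shortest : LD (D + 3) shortest := by
  unfold shortest
  fun_prop

@[fun_prop] theorem ld_slotU : LD (D + 3) fun p : List (List J) × J => slotU p.1 p.2 := by
  unfold slotU
  refine (LD.foldl_add (h := fun (p : List (List J) × J) (st : Bool × J) T =>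
    bif st.1 then st else (decide (p.2 ∈ T), () :: st.2)) (by fun_prop) (by fun_prop)
    (by fun_prop) 2 fun p st T => ?_).snd
  have h1 := one_le_sz T
  have h2 := sz_bool_le (decide (p.2 ∈ T))
  have h3 := one_le_sz st.1
  cases st.1 <;> simp [sz_prod st]; omega

theorem incC_false (s : List Bool) : incC false s = s := by
  induction s with
  | nil => rfl
  | cons b t ih => simp [incC, ih]

theorem sz_incC (s : List Bool) : sz (incC true s) ≤ sz s + 4 := by
  induction s with
  | nil => simp [incC]
  | cons b t ih => cases b <;> simp [incC, incC_false] <;> omega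

theorem incC_aux (s : List Bool) (c : Bool) (acc : List Bool) :
    (bif (s.foldl (fun (st : Bool × List Bool) b => (st.1 && b, xor st.1 b :: st.2)) (c, acc)).1
      then true :: (s.foldl (fun (st : Bool × List Bool) b => (st.1 && b, xor st.1 b :: st.2))
        (c, acc)).2
      else (s.foldl (fun (st : Bool × List Bool) b => (st.1 && b, xor st.1 b :: st.2))
        (c, acc)).2) = (incC c s).reverse ++ acc := by
  induction s generalizing c acc with
  | nil => cases c <;> simp [incC]
  | cons b t ih => simp only [List.foldl_cons, ih]; simp [incC]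

@[fun_prop] theorem ld_incC : LD (D + 1) (incC true) := by
  have h : LD (D + 1) fun s : List Bool =>
      s.foldl (fun (st : Bool × List Bool) b => (st.1 && b, xor st.1 b :: st.2)) (true, []) := by
    refine LD.foldl_add (h := fun _ (st : Bool × List Bool) b => (st.1 && b, xor st.1 b :: st.2))
      LD.id' (LD.const _) (by fun_prop) 4 fun _ st b => ?_
    have h1 := one_le_sz b
    have h2 := sz_bool_le (st.1 && b)
    have h3 := sz_bool_le (xor st.1 b)
    have h4 := one_le_sz st.1
    simp only [sz_prod st, sz_pair, sz_cons]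
    omega
  refine (h.fst.cond ((LD.const true).cons h.snd) h.snd).reverse.congr fun s => ?_
  rw [incC_aux]
  simp

@[fun_prop] theorem ld_codeU : LD (D + 2) codeU := by
  unfold codeU
  refine LD.append (LD.flatten (LD.map_le (f := fun _ b => [true, b]) ?_ (by fun_prop) 7
    fun _ b => ?_)) (LD.const _)
  · refine LD.foldl_add (h := fun _ s _ => incC true s) LD.id' (LD.const _) (by fun_prop) 2
      fun _ s x => ?_
    have := sz_incC s
    simp; omega
  · have := one_le_sz b
    simp; omega

/-! ### The degree of the whole algorithm -/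

/-- Cost of degree `20001`, output size of degree `e`. -/
def ST {β : Type} [PEnc β] (e : ℕ) (f : List Bool → β) : Prop :=
  CD 20000 f ∧ Deg e fun a => sz (f a)

section
variable {β γ : Type} [PEnc β] [PEnc γ] {e : ℕ}

theorem ST.comp {f : β → γ} {g : List Bool → β} {d e' : ℕ} (hg : ST e g) (hf : CD d f)
    (hs : Deg e' fun b => sz (f b)) (hd : e * (d + 1) ≤ 20001) : ST (e * e') fun a => f (g a) :=
  ⟨hf.comp hg.1 hg.2 hd, hs.comp hg.2⟩

theorem ST.ld {f : β → γ} {g : List Bool → β} (hg : ST e g) (hf : LD 8 f) (hd : e ≤ 2000) :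
    ST e fun a => f (g a) := ⟨hf.1.comp hg.1 hg.2 (by omega), by simpa using hf.2.comp hg.2⟩

theorem ST.pair {f : List Bool → β} {g : List Bool → γ} (hf : ST e f) (hg : ST e g) :
    ST e fun a => (f a, g a) := ⟨hf.1.pair hg.1, (hf.2.add hg.2).add (Deg.const 1)⟩

theorem ST.up {f : List Bool → β} {e' : ℕ} (hf : ST e f) (h : e ≤ e') : ST e' f :=
  ⟨hf.1, hf.2.up h⟩

theorem LD.st {f : List Bool → β} (hf : LD 20000 f) : ST 1 f := hf

theorem deg_prodL : Deg 3 fun p : List β × List γ => sz (prodL p.1 p.2) := by
  refine (((Deg.sz_id.mul Deg.sz_id).mul ((Deg.sz_id.cmul 2).add (Deg.const 2))).add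
    (Deg.const 1)).mono fun p => (sz_prodL _ _).trans ?_
  have h1 := (length_le_sz p.1).trans (sz_fst_le p)
  have h2 := (length_le_sz p.2).trans (sz_snd_le p)
  have h3 := sz_fst_le p
  have h4 := sz_snd_le p
  exact Nat.add_le_add_right (Nat.mul_le_mul (Nat.mul_le_mul h1 h2) (by omega)) _

end

theorem cd_alg (Φ : List (List (List (List Bool)))) : CD 20000 (alg Φ 67) := by
  have hn : ST 1 nOf := LD.st ld_nOf
  have hV : ST 2 VOf := hn.comp cd_rangeU deg_rangeU (by omega)
  have hU : ST 2 UOf :=
    (LD.st (f := fun x => nOf x ++ nOf x ++ nOf x) (by fun_prop)).comp cd_rangeU deg_rangeU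
      (by omega)
  have hP : ST 6 fun x => prodL (VOf x) (VOf x) := (hV.pair hV).comp cd_prodL deg_prodL (by omega)
  have hE : ST 6 fun x => edges (prodL (VOf x) (VOf x)) (tblOf x) :=
    (hP.pair ((LD.st ld_tblOf).up (by omega))).ld ld_edges (by omega)
  have hR : ST 6 ROf := ((hV.up (by omega)).pair (hP.pair hE)).ld ld_closure (by omega)
  have hT : ST 136 fun x => tuples (UOf x) 67 := hU.comp (cd_tuples 67) (deg_tuples 67) (by omega)
  have hQ : ST 408 fun x => prodL (tuples (UOf x) 67) Φ :=
    (hT.pair ((LD.st (LD.const Φ)).up (by omega))).comp cd_prodL deg_prodL (by omega)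
  obtain ⟨h1, h2⟩ := CD.map (D := 5)
    (l := fun p : List J × List (J × J) × List (List J × List (List (List Bool))) => p.2.2)
    (f := fun p q => setOf' p.1 p.2.1 q) (by fun_prop) (by fun_prop)
  have hF : ST 816 (FOf Φ 67) :=
    ((hU.up (by omega)).pair ((hR.up (by omega)).pair hQ)).comp h1 h2 (by omega)
  have hK : ST 816 fun x => dp (ROf x) (FOf Φ 67 x) (UOf x) :=
    ((hR.up (by omega)).pair (hF.pair (hU.up (by omega)))).ld ld_dp (by omega)
  have hs : ST 816 (sOf Φ 67) :=
    (((hV.up (by omega)).pair hK).ld ld_covers (by omega)).ld ld_shortest (by omega)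
  obtain ⟨h3, h4⟩ := CD.map (D := 3) (l := fun p : List (List J) × List J => p.2)
    (f := fun p v => codeU (slotU p.1 v)) (by fun_prop) (by fun_prop)
  have hO : ST 1632 fun x => (VOf x).map fun v => codeU (slotU (sOf Φ 67 x) v) :=
    (hs.pair (hV.up (by omega))).comp h3 h4 (by omega)
  exact (((hn.up (by omega)).pair hO).ld
    (f := fun p : J × List (List Bool) => codeU p.1 ++ p.2.flatten) (by fun_prop) (by omega)).1

theorem CD.timeBound {f : List Bool → List Bool} {E : ℕ} (h : CD D f) (hE : D + 1 ≤ E) :
    ∃ C : ℕ, Crest.DTime.TimeBound f fun L => C * (L + 2) ^ E + C := by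
  obtain ⟨C, hC⟩ := h
  obtain ⟨K, hK⟩ := hC.timeBound
  refine ⟨K * C * 4 ^ (D + 1), hK _ fun x => le_add_right ?_⟩
  have h1 : sz x ≤ 4 * (x.length + 2) := (sz_listBool_le x).trans (by omega)
  calc K * (C * sz x ^ (D + 1)) ≤ K * (C * (4 * (x.length + 2)) ^ (D + 1)) := by gcongr
    _ = K * C * 4 ^ (D + 1) * (x.length + 2) ^ (D + 1) := by rw [mul_pow]; ring
    _ ≤ _ := Nat.mul_le_mul_left _ (Nat.pow_le_pow_right (by omega) hE)

end Crest.Agent.R286
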