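import Crest.Agent.R286.Sch

/-!
# Every perfectly schedulable set decomposes through sets definable from at most 67 jobs
-/

set_option autoImplicit false

namespace Crest.Agent.R286

variable {α : Type*} [DecidableEq α]

/-- Jobs succeeding a job of `T`. -/
def sc (r : α → α → Prop) (T : Finset α) : Set α := {x | ∃ t ∈ T, r t x}

/-- Jobs preceding a job of `T`. -/
def pr (r : α → α → Prop) (T : Finset α) : Set α := {x | ∃ t ∈ T, r x t}

/-- `D k X`: the set `X` is definable from `k` jobs of `W`. -/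
structure Fam (r : α → α → Prop) (c : α → ℤ) (W : Set α) (D : ℕ → Set α → Prop) : Prop where
  mono : ∀ {k l : ℕ} {X : Set α}, k ≤ l → D k X → D l X
  univ : D 0 Set.univ
  compl : ∀ {k : ℕ} {X : Set α}, D k X → D k Xᶜ
  inter : ∀ {k l : ℕ} {X Y : Set α}, D k X → D l Y → D (k + l) (X ∩ Y)
  succ : ∀ e ∈ W, D 1 {x | r e x}
  pred : ∀ e ∈ W, D 1 {x | r x e}
  gt : ∀ e ∈ W, D 1 {x | c e < c x}
  lt : ∀ e ∈ W, D 1 {x | c x < c e}
  single : ∀ e ∈ W, D 1 {e}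

namespace Fam
variable {r : α → α → Prop} {c : α → ℤ} {W : Set α} {D : ℕ → Set α → Prop}

omit [DecidableEq α] in
theorem swap (h : Fam r c W D) : Fam (fun x y => r y x) (fun x => -c x) W D where
  mono := h.mono
  univ := h.univ
  compl := h.compl
  inter := h.inter
  succ := h.pred
  pred := h.succ
  gt := fun e he => by simpa using h.lt e he
  lt := fun e he => by simpa using h.gt e he
  single := h.single

omit [DecidableEq α] in
theorem union (h : Fam r c W D) {k l : ℕ} {X Y : Set α} (hX : D k X) (hY : D l Y) :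
    D (k + l) (X ∪ Y) := by
  have := h.compl (h.inter (h.compl hX) (h.compl hY))
  rwa [Set.compl_inter, compl_compl, compl_compl] at this

omit [DecidableEq α] in
theorem diff (h : Fam r c W D) {k l : ℕ} {X Y : Set α} (hX : D k X) (hY : D l Y) :
    D (k + l) (X \ Y) := h.inter hX (h.compl hY)

theorem exists_mem (h : Fam r c W D) {q : α → α → Prop} (hq : ∀ e ∈ W, D 1 {x | q e x})
    (T : Finset α) (hT : ↑T ⊆ W) : D T.card {x | ∃ t ∈ T, q t x} := by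
  induction T using Finset.induction_on with
  | empty => simpa using h.compl h.univ
  | insert a T ha ih =>
    rw [Finset.coe_insert, Set.insert_subset_iff] at hT
    have := h.union (hq a hT.1) (ih hT.2)
    rw [Finset.card_insert_of_notMem ha, Nat.add_comm]
    convert this using 1
    ext x
    simp

theorem sc (h : Fam r c W D) {T : Finset α} (hT : ↑T ⊆ W) (h3 : T.card ≤ 3) : D 3 (sc r T) :=
  h.mono h3 (h.exists_mem h.succ T hT)

theorem pr (h : Fam r c W D) {T : Finset α} (hT : ↑T ⊆ W) (h3 : T.card ≤ 3) : D 3 (pr r T) :=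
  h.mono h3 (h.exists_mem (q := fun e x => r x e) h.pred T hT)

theorem coe (h : Fam r c W D) {T : Finset α} (hT : ↑T ⊆ W) (h3 : T.card ≤ 3) : D 3 ↑T := by
  have := h.mono h3 (h.exists_mem (q := fun e x => x = e) h.single T hT)
  convert this using 1
  ext x
  simp

end Fam

/-- The left boundary of a root. -/
def bd (r : α → α → Prop) (X : Set α) (Z : Finset α) : Set α := (X \ (pr r Z ∪ ↑Z)) ∪ sc r Z

/-- The right boundary determined by a slot. -/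
def bd' (r : α → α → Prop) (X : Set α) (Z : Finset α) : Set α := (X \ (sc r Z ∪ ↑Z)) ∪ pr r Z

/-- Closed under successors. -/
def Up (r : α → α → Prop) (X : Set α) : Prop := ∀ x y, r x y → x ∈ X → y ∈ X

/-- Closed under predecessors. -/
def Down (r : α → α → Prop) (X : Set α) : Prop := ∀ x y, r x y → y ∈ X → x ∈ X

section
variable {r : α → α → Prop}

omit [DecidableEq α] in
theorem mem_bd {X : Set α} {Z : Finset α} {x : α} :
    x ∈ bd r X Z ↔ (x ∈ X ∧ (¬ ∃ t ∈ Z, r x t) ∧ x ∉ Z) ∨ ∃ t ∈ Z, r t x := by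
  simp only [bd, pr, sc, Set.mem_union, Set.mem_sdiff, Set.mem_ofPred_eq, Finset.mem_coe, not_or]

omit [DecidableEq α] in
theorem mem_bd' {X : Set α} {Z : Finset α} {x : α} :
    x ∈ bd' r X Z ↔ (x ∈ X ∧ (¬ ∃ t ∈ Z, r t x) ∧ x ∉ Z) ∨ ∃ t ∈ Z, r x t := by
  simp only [bd', pr, sc, Set.mem_union, Set.mem_sdiff, Set.mem_ofPred_eq, Finset.mem_coe, not_or]

omit [DecidableEq α] in
theorem Up.bd (htr : ∀ x y z, r x y → r y z → r x z) {X : Set α} (hX : Up r X) (Z : Finset α) :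
    Up r (bd r X Z) := by
  intro x y hxy hx
  rw [mem_bd] at hx ⊢
  rcases hx with ⟨h1, h2, -⟩ | ⟨t, ht, htx⟩
  · exact Or.inl ⟨hX x y hxy h1, fun ⟨t, ht, hyt⟩ => h2 ⟨t, ht, htr _ _ _ hxy hyt⟩,
      fun hy => h2 ⟨y, hy, hxy⟩⟩
  · exact Or.inr ⟨t, ht, htr _ _ _ htx hxy⟩

omit [DecidableEq α] in
theorem Down.bd' (htr : ∀ x y z, r x y → r y z → r x z) {X : Set α} (hX : Down r X)
    (Z : Finset α) : Down r (bd' r X Z) := by
  intro x y hxy hy
  rw [mem_bd'] at hy ⊢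
  rcases hy with ⟨h1, h2, -⟩ | ⟨t, ht, htx⟩
  · exact Or.inl ⟨hX x y hxy h1, fun ⟨t, ht, hyt⟩ => h2 ⟨t, ht, htr _ _ _ hyt hxy⟩,
      fun hx => h2 ⟨x, hx, hxy⟩⟩
  · exact Or.inr ⟨t, ht, htr _ _ _ hxy htx⟩

theorem Fam.bd {c : α → ℤ} {W : Set α} {D : ℕ → Set α → Prop} (h : Fam r c W D) {k : ℕ}
    {X : Set α} (hX : D k X) {T : Finset α} (hT : ↑T ⊆ W) (h3 : T.card ≤ 3) :
    D (k + 9) (bd r X T) :=
  h.mono (by omega) (h.union (h.diff hX (h.union (h.pr hT h3) (h.coe hT h3))) (h.sc hT h3))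

theorem Fam.bd' {c : α → ℤ} {W : Set α} {D : ℕ → Set α → Prop} (h : Fam r c W D) {k : ℕ}
    {X : Set α} (hX : D k X) {T : Finset α} (hT : ↑T ⊆ W) (h3 : T.card ≤ 3) :
    D (k + 9) (bd' r X T) :=
  h.mono (by omega) (h.union (h.diff hX (h.union (h.sc hT h3) (h.coe hT h3))) (h.pr hT h3))

/-- The two sides of a clean slot are described by the slot and the low/high partition. -/
theorem Split.mem_left {S G T S' : Finset α} (h : Split r S G T S') {P : α → Prop}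
    (hlow : ∀ y ∈ S', P y → ∃ t ∈ T, r t y) (hhigh : ∀ x ∈ G, ¬ P x → ∃ t ∈ T, r x t) (x : α) :
    x ∈ G ↔ x ∈ S ∧ x ∈ bd' r {x | P x} T := by
  rw [mem_bd', h.mem]
  constructor
  · intro hx
    refine ⟨Or.inl hx, ?_⟩
    by_cases hP : P x
    · exact Or.inl ⟨hP, fun ⟨t, ht, htx⟩ => h.oGT x hx t ht htx, Finset.disjoint_left.1 h.dGT hx⟩
    · exact Or.inr (hhigh x hx hP)
  · rintro ⟨hx | hx | hx, ⟨h1, h2, h3⟩ | ⟨t, ht, hxt⟩⟩
    · exact hx
    · exact hx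
    · exact absurd hx h3
    · exact absurd hxt (h.anti x hx t ht)
    · exact absurd (hlow x hx h1) h2
    · exact absurd hxt (h.oTS t ht x hx)

theorem Split.mem_right {S G T S' : Finset α} (h : Split r S G T S') {P : α → Prop}
    (hlow : ∀ y ∈ S', P y → ∃ t ∈ T, r t y) (hhigh : ∀ x ∈ G, ¬ P x → ∃ t ∈ T, r x t) (x : α) :
    x ∈ S' ↔ x ∈ S ∧ x ∈ bd r {x | ¬ P x} T := by
  rw [mem_bd, h.mem]
  constructor
  · intro hx
    refine ⟨Or.inr (Or.inr hx), ?_⟩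
    by_cases hP : P x
    · exact Or.inr (hlow x hx hP)
    · exact Or.inl ⟨hP, fun ⟨t, ht, htx⟩ => h.oTS t ht x hx htx, Finset.disjoint_right.1 h.dTS hx⟩
  · rintro ⟨hx | hx | hx, ⟨h1, h2, h3⟩ | ⟨t, ht, hxt⟩⟩
    · exact absurd (hhigh x hx h1) h2
    · exact absurd hxt (h.oGT x hx t ht)
    · exact absurd hx h3
    · exact absurd hxt (h.anti t ht x hx)
    · exact hx
    · exact hx

theorem Split.schIn {D : ℕ → Set α → Prop} {c : α → ℤ} {W : Set α} (hF : Fam r c W D)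
    {S G T S' : Finset α} (h : Split r S G T S') (hW : ↑S ⊆ W) (hS : D 67 ↑S) (hG : D 64 ↑G)
    (h1 : SchIn r (fun A => D 67 ↑A) G) (h2 : SchIn r (fun A => D 67 ↑A) S') :
    SchIn r (fun A => D 67 ↑A) S := by
  have hT : D 3 ↑T := hF.coe (fun x hx => hW ((h.mem x).2 (Or.inr (Or.inl hx)))) h.card.le
  have h3 : SchIn r (fun A => D 67 ↑A) (G ∪ T) :=
    .cat G T h1 (.triple T h.card h.anti (hF.mono (by omega) hT)) h.dGT h.oGT
      (by rw [Finset.coe_union]; exact hF.union hG hT)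
  have h4 := SchIn.cat _ _ h3 h2 h.dGTS h.oGTS (by rw [h.eq]; exact hS)
  rwa [h.eq] at h4

end

/-- The invariant of the recursion. -/
structure Root (r : α → α → Prop) (c : α → ℤ) (W : Set α) (D : ℕ → Set α → Prop)
    (S : Finset α) (L Θ : Set α) (Z : Finset α) (R : Set α) : Prop where
  SW : ↑S ⊆ W
  inj : Set.InjOn c ↑S
  ZW : ↑Z ⊆ W
  Z3 : Z.card ≤ 3
  upL : Up r L
  downR : Down r R
  upΘ : ∀ x y, c x ≤ c y → x ∈ Θ → y ∈ Θ
  ZL : ↑Z ⊆ L
  dL : D 27 L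
  dΘ : D 1 Θ
  dR : D 17 R
  mem : ∀ x, x ∈ S ↔ x ∈ bd r (L ∩ Θ) Z ∧ x ∈ R
  star : Star r c Z S
  sch : Sch r S

theorem Root.fresh {r : α → α → Prop} {c : α → ℤ} {W : Set α} {D : ℕ → Set α → Prop}
    (hF : Fam r c W D) {S : Finset α} {L R : Set α} (hW : ↑S ⊆ W) (hinj : Set.InjOn c ↑S)
    (hL : Up r L) (hR : Down r R) (dL : D 27 L) (dR : D 17 R) (hm : ∀ x, x ∈ S ↔ x ∈ L ∧ x ∈ R)
    (hs : Sch r S) : Root r c W D S L Set.univ ∅ R where
  SW := hW
  inj := hinj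
  ZW := by simp
  Z3 := by simp
  upL := hL
  downR := hR
  upΘ := fun _ _ _ _ => trivial
  ZL := by simp
  dL := dL
  dΘ := hF.mono (by omega) hF.univ
  dR := dR
  mem := fun x => by simp [hm, mem_bd]
  star := Star.empty _ _
  sch := hs

theorem Root.schIn {W : Set α} {D : ℕ → Set α → Prop} (n : ℕ) :
    ∀ (r : α → α → Prop) (c : α → ℤ), (∀ x y z, r x y → r y z → r x z) → (∀ x, ¬ r x x) →
      (∀ x y, r x y → c x ≤ c y) → Fam r c W D →
      ∀ (S : Finset α) (L Θ : Set α) (Z : Finset α) (R : Set α), S.card < n →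
        Root r c W D S L Θ Z R → SchIn r (fun A => D 67 ↑A) S := by
  classical
  induction n with
  | zero => intro _ _ _ _ _ _ _ _ _ _ _ h; omega
  | succ n ih =>
  intro r c htr hirr hc hF
  suffices H : ∀ (S : Finset α) (L Θ : Set α) (Z : Finset α) (R : Set α), S.card < n + 1 →
      Root r c W D S L Θ Z R → (∃ v ∈ S, ¬ ∃ z ∈ Z, r z v) → SchIn r (fun A => D 67 ↑A) S by
    intro S L Θ Z R hn h
    rcases S.eq_empty_or_nonempty with rfl | ⟨v, hv⟩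
    · exact .empty
    by_cases hex : ∃ v ∈ S, ¬ ∃ z ∈ Z, r z v
    · exact H S L Θ Z R hn h hex
    · refine H S (sc r Z) Set.univ ∅ R hn (Root.fresh hF h.SW h.inj ?_ h.downR
        (hF.mono (by omega) (hF.sc h.ZW h.Z3)) h.dR (fun x => ⟨fun hx => ⟨?_, ((h.mem x).1 hx).2⟩,
          fun hx => (h.mem x).2 ⟨mem_bd.2 (Or.inr hx.1), hx.2⟩⟩) h.sch) ⟨v, hv, by simp⟩
      · rintro x y hxy ⟨t, ht, htx⟩
        exact ⟨t, ht, htr _ _ _ htx hxy⟩
      · by_contra hh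
        exact hex ⟨x, hx, hh⟩
  intro S L Θ Z R hn h hex
  obtain ⟨v, hv, hvmin⟩ := Finset.exists_min_image (S.filter fun v => ¬ ∃ z ∈ Z, r z v) c
    (by obtain ⟨v, h1, h2⟩ := hex; exact ⟨v, Finset.mem_filter.2 ⟨h1, h2⟩⟩)
  obtain ⟨hvS, hvZ⟩ := Finset.mem_filter.1 hv
  obtain ⟨G, T, S', hsp, hlow, hhigh, hstar⟩ := exists_split htr hirr hc (c v) h.sch ⟨v, hvS⟩
  have hhigh' : ∀ x ∈ G, ¬ c x ≤ c v → ∃ t ∈ T, r x t := fun x hx hh => hhigh x hx (not_le.1 hh)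
  have hGS : G ⊆ S := fun x hx => (hsp.mem x).2 (Or.inl hx)
  have hTS : T ⊆ S := fun x hx => (hsp.mem x).2 (Or.inr (Or.inl hx))
  have hSS : S' ⊆ S := fun x hx => (hsp.mem x).2 (Or.inr (Or.inr hx))
  have hTW : ↑T ⊆ W := fun x hx => h.SW (hTS hx)
  have hvW : v ∈ W := h.SW hvS
  have hupLΘ : Up r (L ∩ Θ) := fun x y hxy hx =>
    ⟨h.upL x y hxy hx.1, h.upΘ x y (hc x y hxy) hx.2⟩
  have hupB : Up r (bd r (L ∩ Θ) Z) := hupLΘ.bd htr Z
  have hSB : ∀ x ∈ S, x ∈ bd r (L ∩ Θ) Z := fun x hx => ((h.mem x).1 hx).1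
  have hSR : ∀ x ∈ S, x ∈ R := fun x hx => ((h.mem x).1 hx).2
  have hBL : ∀ x ∈ bd r (L ∩ Θ) Z, x ∈ L := fun x hx => by
    rcases mem_bd.1 hx with hx | ⟨z, hz, hzx⟩
    · exact hx.1.1
    · exact h.upL z x hzx (h.ZL hz)
  have hvΘ : v ∈ Θ := ((mem_bd.1 (hSB v hvS)).resolve_right hvZ).1.2
  have hcard := hsp.card_eq
  have dB : D 37 (bd r (L ∩ Θ) Z) := hF.bd (hF.inter h.dL h.dΘ) h.ZW h.Z3
  have dS : D 54 ↑S := by
    have := hF.inter dB h.dR
    convert this using 1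
    ext x
    exact h.mem x
  -- the part after the clean slot is a root with the same base
  have hZT : ∀ w ∈ Z, c v < c w → ∃ t ∈ T, r w t := fun w hw hvw => by
    by_contra hh
    exact hvZ (hsp.low_succ htr hc h.star hlow hhigh hw hvw hh v hvS le_rfl)
  have hS' : SchIn r (fun A => D 67 ↑A) S' := by
    refine ih r c htr hirr hc hF S' L {x | c v < c x} T R (by omega)
      ⟨fun x hx => h.SW (hSS hx), h.inj.mono hSS, hTW, hsp.card.le, h.upL, h.downR,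
        fun x y hxy hx => lt_of_lt_of_le hx hxy, fun x hx => hBL x (hSB x (hTS hx)), h.dL,
        hF.gt v hvW, h.dR, fun x => ?_, hstar, hsp.schS⟩
    rw [hsp.mem_right hlow hhigh', mem_bd, mem_bd]
    constructor
    · rintro ⟨hx, hh⟩
      refine ⟨hh.imp_left fun hh => ⟨⟨hBL x (hSB x hx), not_le.1 hh.1⟩, hh.2⟩, hSR x hx⟩
    · rintro ⟨hh, hx⟩
      refine ⟨(h.mem x).2 ⟨?_, hx⟩, hh.imp_left fun hh => ⟨not_le.2 hh.1.2, hh.2⟩⟩
      rcases hh with ⟨⟨h1, h2⟩, h3, -⟩ | ⟨t, ht, htx⟩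
      · have h2' : c v < c x := h2
        refine mem_bd.2 (Or.inl ⟨⟨h1, h.upΘ v x h2'.le hvΘ⟩, ?_, fun hxZ => h3 (hZT x hxZ h2')⟩)
        rintro ⟨w, hw, hxw⟩
        obtain ⟨t, ht, hwt⟩ := hZT w hw (h2'.trans_le (hc _ _ hxw))
        exact h3 ⟨t, ht, htr _ _ _ hxw hwt⟩
      · exact hupB t x htx (hSB t (hTS ht))
  -- the window before the clean slot
  have hGm := hsp.mem_left hlow hhigh'
  have hdown : Down r {x | c x ≤ c v} := fun x y hxy hy => (hc x y hxy).trans hy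
  have hdownD : Down r (bd' r {x | c x ≤ c v} T) := hdown.bd' htr T
  have dD : D 10 (bd' r {x | c x ≤ c v} T) := by
    refine hF.bd' (k := 1) ?_ hTW hsp.card.le
    convert hF.compl (hF.gt v hvW) using 1
    ext x
    simp
  have dG : D 64 ↑G := by
    have := hF.inter dS dD
    convert this using 1
    ext x
    exact hGm x
  refine hsp.schIn hF h.SW (hF.mono (by omega) dS) dG ?_ hS'
  rcases G.eq_empty_or_nonempty with rfl | hGne
  · exact .empty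
  obtain ⟨G₁, T', G₂, hsp', hlow', hhigh₀, -⟩ := exists_split htr hirr
    (c := fun x => if ∃ t ∈ T, r x t then 0 else 1) (fun x y hxy => by
      by_cases hy : ∃ t ∈ T, r y t
      · obtain ⟨t, ht, hyt⟩ := hy
        simp only [if_pos (⟨t, ht, htr _ _ _ hxy hyt⟩ : ∃ t ∈ T, r x t),
          if_pos (⟨t, ht, hyt⟩ : ∃ t ∈ T, r y t), le_refl]
      · simp only [if_neg hy]
        split_ifs <;> simp) 0 hsp.schG hGne
  have hlow₁ : ∀ y ∈ G₂, (∃ t ∈ T, r y t) → ∃ t ∈ T', r t y := fun y hy hh =>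
    hlow' y hy (by simp only [if_pos hh, le_refl])
  have hhigh₁ : ∀ y ∈ G₁, (¬ ∃ t ∈ T, r y t) → ∃ t ∈ T', r y t := fun y hy hh =>
    hhigh₀ y hy (by simp only [if_neg hh, zero_lt_one])
  have hG₁ : G₁ ⊆ G := fun x hx => (hsp'.mem x).2 (Or.inl hx)
  have hT' : T' ⊆ G := fun x hx => (hsp'.mem x).2 (Or.inr (Or.inl hx))
  have hG₂ : G₂ ⊆ G := fun x hx => (hsp'.mem x).2 (Or.inr (Or.inr hx))
  have hT'W : ↑T' ⊆ W := fun x hx => h.SW (hGS (hT' hx))
  have hcard' := hsp'.card_eq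
  have hdownP : Down r {x | ∃ t ∈ T, r x t} := fun x y hxy ⟨t, ht, hyt⟩ =>
    ⟨t, ht, htr _ _ _ hxy hyt⟩
  have dR' : D 12 (bd' r {x | ∃ t ∈ T, r x t} T') :=
    hF.bd' (hF.pr hTW hsp.card.le) hT'W hsp'.card.le
  have hm₁ : ∀ x, x ∈ G₁ ↔ x ∈ bd r (L ∩ Θ) Z ∧ x ∈ bd' r {x | ∃ t ∈ T, r x t} T' := by
    intro x
    rw [hsp'.mem_left hlow₁ hhigh₁]
    refine and_congr_left fun hx => ⟨fun hG => hSB x (hGS hG), fun hB => ?_⟩
    rw [hGm, h.mem]
    rcases mem_bd'.1 hx with ⟨⟨t, ht, hxt⟩, -⟩ | ⟨t, ht, hxt⟩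
    · exact ⟨⟨hB, h.downR x t hxt (hSR t (hTS ht))⟩, mem_bd'.2 (Or.inr ⟨t, ht, hxt⟩)⟩
    · exact ⟨⟨hB, h.downR x t hxt (hSR t (hGS (hT' ht)))⟩,
        hdownD x t hxt ((hGm t).1 (hT' ht)).2⟩
  refine hsp'.schIn hF (fun x hx => h.SW (hGS hx)) (hF.mono (by omega) dG) ?_ ?_ ?_
  · refine hF.mono (by omega : 37 + 12 ≤ 64) ?_
    convert hF.inter dB dR' using 1
    ext x
    exact hm₁ x
  · exact ih r c htr hirr hc hF G₁ L Θ Z _ (by omega)
      ⟨fun x hx => h.SW (hGS (hG₁ hx)), h.inj.mono fun x hx => hGS (hG₁ hx), h.ZW, h.Z3, h.upL,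
        hdownP.bd' htr T', h.upΘ, h.ZL, h.dL, h.dΘ, hF.mono (by omega) dR', hm₁,
        hsp'.star_left (hsp.star_left h.star), hsp'.schG⟩
  · have hupA : Up r ((sc r Z ∪ {x | r v x} ∪ {v}) \ pr r T) := by
      rintro x y hxy ⟨h1, h2⟩
      refine ⟨?_, fun hy => h2 (hdownP x y hxy hy)⟩
      rcases h1 with (⟨z, hz, hzx⟩ | h1) | h1
      · exact Or.inl (Or.inl ⟨z, hz, htr _ _ _ hzx hxy⟩)
      · exact Or.inl (Or.inr (htr _ _ _ h1 hxy))
      · exact Or.inl (Or.inr (show r v y from h1 ▸ hxy))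
    have dA : D 17 (bd r ((sc r Z ∪ {x | r v x} ∪ {v}) \ pr r T) T') :=
      hF.bd (hF.diff (hF.union (hF.union (hF.sc h.ZW h.Z3) (hF.succ v hvW)) (hF.single v hvW))
        (hF.pr hTW hsp.card.le)) hT'W hsp'.card.le
    refine SchIn.swap (r := fun x y => r y x) (ih (fun x y => r y x) (fun x => -c x)
      (fun x y z h1 h2 => htr _ _ _ h2 h1) hirr (fun x y hxy => neg_le_neg (hc _ _ hxy)) hF.swap
      G₂ (R ∩ bd' r {x | c x ≤ c v} T) Set.univ ∅
      (bd r ((sc r Z ∪ {x | r v x} ∪ {v}) \ pr r T) T') (by omega)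
      (Root.fresh hF.swap (fun x hx => h.SW (hGS (hG₂ hx))) ?_ ?_ ?_ (hF.inter h.dR dD) dA
        (fun x => ?_) hsp'.schS.swap))
    · intro x hx y hy hxy
      exact h.inj (hGS (hG₂ hx)) (hGS (hG₂ hy)) (neg_injective hxy)
    · exact fun x y hxy hx => ⟨h.downR y x hxy hx.1, hdownD y x hxy hx.2⟩
    · exact fun x y hxy hy => hupA.bd htr T' y x hxy hy
    · rw [hsp'.mem_right hlow₁ hhigh₁, mem_bd, mem_bd]
      constructor
      · rintro ⟨hx, hh⟩
        refine ⟨⟨hSR x (hGS hx), ((hGm x).1 hx).2⟩, hh.imp_left fun hh => ⟨⟨?_, hh.1⟩, hh.2⟩⟩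
        by_contra hA
        have h1 : c v ≤ c x :=
          hvmin x (Finset.mem_filter.2 ⟨hGS hx, fun hz => hA (Or.inl (Or.inl hz))⟩)
        rcases h1.eq_or_lt with h1 | h1
        · exact hA (Or.inr (h.inj (hGS hx) hvS h1.symm))
        · exact hh.1 (hhigh x hx h1)
      · rintro ⟨⟨h1, h2⟩, hh⟩
        refine ⟨(hGm x).2 ⟨(h.mem x).2 ⟨?_, h1⟩, h2⟩, hh.imp_left fun hh => ⟨hh.1.2, hh.2⟩⟩
        rcases hh with ⟨⟨(hz | hz) | hz, -⟩, -⟩ | ⟨t, ht, htx⟩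
        · exact mem_bd.2 (Or.inr hz)
        · exact hupB v x hz (hSB v hvS)
        · exact (show x = v from hz) ▸ hSB v hvS
        · exact hupB t x htx (hSB t (hGS (hT' ht)))

/-- Main structure theorem. -/
theorem Sch.schIn {W : Set α} {D : ℕ → Set α → Prop} {r : α → α → Prop} {c : α → ℤ}
    (htr : ∀ x y z, r x y → r y z → r x z) (hirr : ∀ x, ¬ r x x)
    (hc : ∀ x y, r x y → c x ≤ c y) (hF : Fam r c W D) {S : Finset α} (hW : ↑S ⊆ W)
    (hinj : Set.InjOn c ↑S) (hdown : Down r ↑S) (hD : D 17 ↑S) (h : Sch r S) :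
    SchIn r (fun A => D 67 ↑A) S :=
  Root.schIn _ r c htr hirr hc hF S Set.univ Set.univ ∅ ↑S (Nat.lt_succ_self _)
    (Root.fresh hF hW hinj (fun _ _ _ _ => trivial) hdown (hF.mono (by omega) hF.univ) hD
      (by simp) h)

end Crest.Agent.R286
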