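import Crest.Agent.R286.Parse
import Crest.Agent.R286.Root

/-!
# The family of definable sets and the dynamic program
-/

set_option autoImplicit false

namespace Crest.Agent.R286

/-- The linear extension used for thresholds. -/
def wt (U : List J) (R : List (J × J)) (x : J) : ℤ :=
  ((preds U R x).length * U.length + x.length : ℕ)

/-- Definability from `k` jobs. -/
def Dfn (U : List J) (R : List (J × J)) (k : ℕ) (X : Set J) : Prop :=
  ∃ d : List J, d.length = k ∧ (∀ e ∈ d, e ∈ U) ∧
    ∀ x ∈ U, ∀ y ∈ U, (∀ e ∈ d, ty U R x e = ty U R y e) → x ∈ X → y ∈ X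

theorem Dfn.one {U : List J} {R : List (J × J)} {X : Set J} {e : J} (he : e ∈ U)
    (h : ∀ x ∈ U, ∀ y ∈ U, ty U R x e = ty U R y e → x ∈ X → y ∈ X) : Dfn U R 1 X :=
  ⟨[e], rfl, by simpa using he, fun x hx y hy hh => h x hx y hy (hh e (by simp))⟩

theorem lex_lt {a b i j N : ℕ} (hi : i < N) (hj : j < N) :
    a * N + i < b * N + j ↔ a < b ∨ (a = b ∧ i < j) := by
  rcases lt_trichotomy a b with h | rfl | h
  · have := Nat.mul_le_mul_right N (Nat.succ_le_of_lt h)
    rw [Nat.succ_mul] at this
    exact ⟨fun _ => Or.inl h, fun _ => by omega⟩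
  · simp
  · have := Nat.mul_le_mul_right N (Nat.succ_le_of_lt h)
    rw [Nat.succ_mul] at this
    constructor <;> intro h' <;> omega

theorem wt_lt {N : J} {R : List (J × J)} {x y : J} (hx : x ∈ rangeU N) (hy : y ∈ rangeU N) :
    wt (rangeU N) R x < wt (rangeU N) R y ↔
      (preds (rangeU N) R x).length < (preds (rangeU N) R y).length ∨
        ((preds (rangeU N) R x).length = (preds (rangeU N) R y).length ∧ x.length < y.length) := by
  rw [wt, wt, Nat.cast_lt, length_rangeU]
  exact lex_lt (mem_rangeU.1 hx) (mem_rangeU.1 hy)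

theorem wt_inj {N : J} {R : List (J × J)} {x y : J} (hx : x ∈ rangeU N) (hy : y ∈ rangeU N)
    (h : wt (rangeU N) R x = wt (rangeU N) R y) : x = y := by
  have h1 := wt_lt (R := R) hx hy
  have h2 := wt_lt (R := R) hy hx
  simp only [h, lt_irrefl, false_iff, not_or, not_and, not_lt] at h1 h2
  apply J_ext
  omega

theorem wt_mono {N : J} {R : List (J × J)}
    (htr : ∀ x y z, (x, y) ∈ R → (y, z) ∈ R → (x, z) ∈ R) (hirr : ∀ x, (x, x) ∉ R)
    (hR : ∀ x y, (x, y) ∈ R → x ∈ rangeU N ∧ y ∈ rangeU N) {x y : J} (h : (x, y) ∈ R) :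
    wt (rangeU N) R x < wt (rangeU N) R y := by
  refine (wt_lt (hR x y h).1 (hR x y h).2).2 (Or.inl ?_)
  have h1 : (preds (rangeU N) R x).Sublist (preds (rangeU N) R y) :=
    List.monotone_filter_right _ fun u hu => by
      simp only [decide_eq_true_eq] at hu ⊢
      exact htr _ _ _ hu h
  refine lt_of_le_of_ne h1.length_le fun he => hirr x ?_
  have h2 : x ∈ preds (rangeU N) R y := by simp [preds, (hR x y h).1, h]
  rw [← h1.eq_of_length he] at h2
  simpa using (List.mem_filter.1 h2).2

theorem ty_eq {U : List J} {R : List (J × J)} {x y e : J} (h : ty U R x e = ty U R y e) :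
    ((x, e) ∈ R ↔ (y, e) ∈ R) ∧ ((e, x) ∈ R ↔ (e, y) ∈ R) ∧
      ((preds U R x).length < (preds U R e).length ↔ (preds U R y).length < (preds U R e).length) ∧
      ((preds U R e).length < (preds U R x).length ↔ (preds U R e).length < (preds U R y).length) ∧
      (x.length < e.length ↔ y.length < e.length) ∧ (e.length < x.length ↔ e.length < y.length) := by
  simpa [ty, lenLt] using h

theorem fam_Dfn {N : J} (hN : N ≠ []) (R : List (J × J)) :
    Fam (fun x y => (x, y) ∈ R) (wt (rangeU N) R) {x | x ∈ rangeU N} (Dfn (rangeU N) R) where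
  mono := by
    rintro k l X hkl ⟨d, rfl, h1, h2⟩
    refine ⟨d ++ List.replicate (l - d.length) [], by simp; omega, fun e he => ?_,
      fun x hx y hy hh => h2 x hx y hy fun e he => hh e (List.mem_append_left _ he)⟩
    rcases List.mem_append.1 he with he | he
    · exact h1 e he
    · rw [List.eq_of_mem_replicate he, mem_rangeU]
      exact List.length_pos_iff.2 hN
  univ := ⟨[], rfl, by simp, fun _ _ _ _ _ _ => trivial⟩
  compl := by
    rintro k X ⟨d, h0, h1, h2⟩
    exact ⟨d, h0, h1, fun x hx y hy hh hX hY => hX (h2 y hy x hx (fun e he => (hh e he).symm) hY)⟩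
  inter := by
    rintro k l X Y ⟨d, rfl, h1, h2⟩ ⟨d', rfl, h1', h2'⟩
    refine ⟨d ++ d', by simp, fun e he => (List.mem_append.1 he).elim (h1 e) (h1' e),
      fun x hx y hy hh hX => ⟨h2 x hx y hy (fun e he => hh e (List.mem_append_left _ he)) hX.1,
        h2' x hx y hy (fun e he => hh e (List.mem_append_right _ he)) hX.2⟩⟩
  succ := fun e he => .one he fun x _ y _ h hX => (ty_eq h).2.1.1 hX
  pred := fun e he => .one he fun x _ y _ h hX => (ty_eq h).1.1 hX
  gt := fun e he => .one he fun x hx y hy h hX => by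
    obtain ⟨-, -, h1, h2, h3, h4⟩ := ty_eq h
    have h5 := (wt_lt he hx).1 hX
    exact (wt_lt he hy).2 (by omega)
  lt := fun e he => .one he fun x hx y hy h hX => by
    obtain ⟨-, -, h1, h2, h3, h4⟩ := ty_eq h
    have h5 := (wt_lt hx he).1 hX
    exact (wt_lt hy he).2 (by omega)
  single := fun e he => .one he fun x hx y hy h hX => by
    obtain ⟨-, -, -, -, h3, h4⟩ := ty_eq h
    obtain rfl : x = e := hX
    exact J_ext (by omega)

/-- A list containing every set of type vectors. -/
theorem exists_Phi (k : ℕ) : ∃ Φ : List (List (List (List Bool))), [] ∈ Φ ∧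
    ∀ s : List (List Bool) → Prop, ∃ φ ∈ Φ, ∀ v : List (List Bool), v.length = k →
      (∀ b ∈ v, b.length = 6) → (v ∈ φ ↔ s v) := by
  classical
  refine ⟨(tuples (tuples [false, true] 6) k).sublists, by simp, fun s =>
    ⟨(tuples (tuples [false, true] 6) k).filter fun v => decide (s v),
      List.mem_sublists.2 List.filter_sublist, fun v h1 h2 => ?_⟩⟩
  have : v ∈ tuples (tuples [false, true] 6) k :=
    mem_tuples.2 ⟨h1, fun b hb => mem_tuples.2 ⟨h2 b hb, fun e _ => by cases e <;> simp⟩⟩
  simp [this]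

theorem exists_mem_family {k : ℕ} {Φ : List (List (List (List Bool)))}
    (hΦ : ∀ s : List (List Bool) → Prop, ∃ φ ∈ Φ, ∀ v : List (List Bool), v.length = k →
      (∀ b ∈ v, b.length = 6) → (v ∈ φ ↔ s v)) {U : List J} {R : List (J × J)} {X : Set J}
    (h : Dfn U R k X) :
    ∃ S ∈ (prodL (tuples U k) Φ).map (setOf' U R), ∀ x, x ∈ S ↔ x ∈ U ∧ x ∈ X := by
  obtain ⟨d, h0, h1, h2⟩ := h
  obtain ⟨φ, hφ, h3⟩ := hΦ fun v => ∃ x ∈ U, x ∈ X ∧ d.map (ty U R x) = v
  refine ⟨setOf' U R (d, φ), List.mem_map_of_mem (mem_prodL.2 ⟨mem_tuples.2 ⟨h0, h1⟩, hφ⟩),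
    fun y => ?_⟩
  simp only [setOf', List.mem_filter, decide_eq_true_eq]
  refine and_congr_right fun hy => ?_
  rw [h3 _ (by simpa using h0) (by simp [ty])]
  constructor
  · rintro ⟨x, hx, hX, he⟩
    exact h2 x hx y hy (List.map_inj_left.1 he) hX
  · exact fun hX => ⟨y, hy, hX, rfl⟩

/-- A list of slots that is a perfect schedule of the jobs it contains. -/
structure Valid (R : List (J × J)) (s : List (List J)) : Prop where
  len : ∀ T ∈ s, T.length = 3
  anti : ∀ T ∈ s, ∀ x ∈ T, ∀ y ∈ T, (x, y) ∉ R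
  ord : s.Pairwise fun T T' => ∀ x ∈ T, ∀ y ∈ T', (y, x) ∉ R
  nodup : s.flatten.Nodup

theorem Valid.length_flatten {R : List (J × J)} {s : List (List J)} (h : Valid R s) :
    s.flatten.length = 3 * s.length := by
  have := h.len
  clear h
  induction s with
  | nil => rfl
  | cons T s ih =>
    simp only [List.flatten_cons, List.length_append, List.length_cons,
      ih fun T' h' => this T' (List.mem_cons_of_mem _ h'), this T (by simp)]
    omega

theorem tri_iff {R : List (J × J)} {S : List J} :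
    tri R S = true ↔ S.length = 3 ∧ ∀ x ∈ S, ∀ y ∈ S, (x, y) ∉ R := by
  simp only [tri, lenLt, Bool.and_eq_true, decide_eq_true_eq, List.all_eq_true, Bool.not_eq_true',
    decide_eq_false_iff_not, List.length_cons, List.length_nil]
  exact and_congr_left' (by omega)

theorem cand_sound {R : List (J × J)} {K : List (List (List J))} (hK : ∀ s ∈ K, Valid R s)
    {S : List J} (hS : S.Nodup) {s : List (List J)} (hs : s ∈ cand R K S) :
    Valid R s ∧ s.flatten.Perm S := by
  rcases cand_cases R K S with ⟨h0, h⟩ | ⟨h0, h⟩ | ⟨a, ha, b, hb, h0, h⟩ | ⟨-, -, -, h⟩ <;>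
    rw [h] at hs
  · obtain rfl : s = [] := by simpa using hs
    exact ⟨⟨by simp, by simp, by simp, by simp⟩, by simp [h0]⟩
  · obtain rfl : s = [S] := by simpa using hs
    obtain ⟨h1, h2⟩ := tri_iff.1 h0
    exact ⟨⟨by simpa using h1, by simpa using h2, by simp, by simpa using hS⟩, by simp⟩
  · obtain rfl : s = a ++ b := by simpa using hs
    obtain ⟨h1, -, h2⟩ := okB_iff.1 h0
    refine ⟨⟨fun T hT => (List.mem_append.1 hT).elim ((hK a ha).len T) ((hK b hb).len T),
      fun T hT => (List.mem_append.1 hT).elim ((hK a ha).anti T) ((hK b hb).anti T),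
      List.pairwise_append.2 ⟨(hK a ha).ord, (hK b hb).ord, fun T hT T' hT' x hx y hy =>
        h2 x (List.mem_flatten.2 ⟨T, hT, hx⟩) y (List.mem_flatten.2 ⟨T', hT', hy⟩)⟩,
      h1.nodup_iff.2 hS⟩, h1⟩
  · simp at hs

theorem mem_dpStep {R : List (J × J)} {F : List (List J)} {K : List (List (List J))}
    {s : List (List J)} : s ∈ dpStep R F K ↔ ∃ S ∈ F, s ∈ cand R K S := by
  simp [dpStep]

theorem iter_valid {R : List (J × J)} {F : List (List J)} (hF : ∀ S ∈ F, S.Nodup) (i : ℕ) :
    ∀ s ∈ (dpStep R F)^[i] [], Valid R s := by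
  induction i with
  | zero => simp
  | succ i ih =>
    intro s hs
    rw [Function.iterate_succ_apply', mem_dpStep] at hs
    obtain ⟨S, hS, hs⟩ := hs
    exact (cand_sound ih (hF S hS) hs).1

theorem iter_complete {R : List (J × J)} {F : List (List J)} (hF : ∀ S ∈ F, S.Nodup)
    (h0 : [] ∈ F) {U : List J} {P : Finset J → Prop}
    (hP : ∀ A, P A → ∃ S ∈ F, ∀ x, x ∈ S ↔ x ∈ U ∧ x ∈ A) {A : Finset J}
    (h : SchIn (fun x y => (x, y) ∈ R) P A) (hA : ∀ x ∈ A, x ∈ U) :
    ∀ i, A.card < i → ∃ s ∈ (dpStep R F)^[i] [], s.flatten.toFinset = A := by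
  have fin : ∀ (i : ℕ) (A : Finset J) (S : List J), S ∈ F → S.toFinset = A →
      cand R ((dpStep R F)^[i] []) S ≠ [] →
      ∃ s ∈ (dpStep R F)^[i + 1] [], s.flatten.toFinset = A := by
    intro i A S hS e hne
    obtain ⟨s, hs⟩ := List.exists_mem_of_ne_nil _ hne
    refine ⟨s, ?_, ?_⟩
    · rw [Function.iterate_succ_apply', mem_dpStep]
      exact ⟨S, hS, hs⟩
    · rw [List.toFinset_eq_of_perm _ _ (cand_sound (iter_valid hF i) (hF S hS) hs).2, e]
  have hP' : ∀ A, P A → (∀ x ∈ A, x ∈ U) → ∃ S ∈ F, S.toFinset = A := fun A h1 h2 => by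
    obtain ⟨S, hS, h3⟩ := hP A h1
    exact ⟨S, hS, Finset.ext fun x => by
      rw [List.mem_toFinset, h3]; exact ⟨fun h => h.2, fun h => ⟨h2 x h, h⟩⟩⟩
  induction h with
  | empty =>
    intro i hi
    obtain ⟨i, rfl⟩ : ∃ j, i = j + 1 := ⟨i - 1, by omega⟩
    exact fin i _ [] h0 rfl (by simp [cand])
  | triple T h1 h2 h3 =>
    intro i hi
    obtain ⟨i, rfl⟩ : ∃ j, i = j + 1 := ⟨i - 1, by omega⟩
    obtain ⟨S, hS, rfl⟩ := hP' T h3 hA
    refine fin i _ S hS rfl ?_
    have h4 : tri R S = true := tri_iff.2 ⟨by rw [← List.toFinset_card_of_nodup (hF S hS), h1],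
      fun x hx y hy => h2 x (List.mem_toFinset.2 hx) y (List.mem_toFinset.2 hy)⟩
    rcases cand_cases R ((dpStep R F)^[i] []) S with
      ⟨-, h⟩ | ⟨-, h⟩ | ⟨a, -, b, -, -, h⟩ | ⟨-, h5, -, h⟩
    · simp [h]
    · simp [h]
    · simp [h]
    · simp [h4] at h5
  | cat A B _ _ hd ho h3 ihA ihB =>
    intro i hi
    have ihA' := ihA fun x hx => hA x (Finset.mem_union_left _ hx)
    have ihB' := ihB fun x hx => hA x (Finset.mem_union_right _ hx)
    rcases A.eq_empty_or_nonempty with rfl | hAne
    · simpa using ihB' i (by simpa using hi)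
    rcases B.eq_empty_or_nonempty with rfl | hBne
    · simpa using ihA' i (by simpa using hi)
    obtain ⟨i, rfl⟩ : ∃ j, i = j + 1 := ⟨i - 1, by omega⟩
    have hc := Finset.card_union_of_disjoint hd
    have := hAne.card_pos
    have := hBne.card_pos
    obtain ⟨a, ha, ea⟩ := ihA' i (by omega)
    obtain ⟨b, hb, eb⟩ := ihB' i (by omega)
    obtain ⟨S, hS, eS⟩ := hP' _ h3 hA
    refine fin i _ S hS eS ?_
    have va := iter_valid hF i a ha
    have vb := iter_valid hF i b hb
    have hperm : (a ++ b).flatten.Perm S := by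
      refine List.perm_of_nodup_nodup_toFinset_eq ?_ (hF S hS) (by simp [ea, eb, eS])
      rw [List.flatten_append]
      exact va.nodup.append vb.nodup (List.disjoint_toFinset_iff_disjoint.1 (by rwa [ea, eb]))
    have h4 : okB R a b S = true := by
      refine okB_iff.2 ⟨hperm, ?_, fun x hx y hy =>
        ho x (ea ▸ List.mem_toFinset.2 hx) y (eb ▸ List.mem_toFinset.2 hy)⟩
      have h5 := hperm.length_eq
      rw [List.flatten_append, List.length_append, va.length_flatten, vb.length_flatten] at h5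
      rw [List.length_append]
      omega
    rcases cand_cases R ((dpStep R F)^[i] []) S with
      ⟨-, h⟩ | ⟨-, h⟩ | ⟨a, -, b, -, -, h⟩ | ⟨-, -, h5, h⟩
    · simp [h]
    · simp [h]
    · simp [h]
    · simp [h5 a ha b hb] at h4

theorem dp_eq (R : List (J × J)) (F : List (List J)) (U : List J) :
    dp R F U = (dpStep R F)^[U.length + 1] [] := List.foldl_const _ _ _

theorem shortest_spec {K : List (List (List J))} {t : List (List J)} (ht : t ∈ K) :
    shortest K ∈ K ∧ (shortest K).length ≤ t.length := by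
  obtain ⟨s, hs, hmin⟩ := K.toFinset.exists_min_image List.length ⟨t, List.mem_toFinset.2 ht⟩
  have h1 : s ∈ K.filter fun s => K.all fun t => !lenLt t s := by
    simp only [List.mem_filter, lenLt, List.all_eq_true, Bool.not_eq_true', decide_eq_false_iff_not,
      not_lt]
    exact ⟨List.mem_toFinset.1 hs, fun x hx => hmin x (List.mem_toFinset.2 hx)⟩
  have h2 : shortest K ∈ K.filter fun s => K.all fun t => !lenLt t s := by
    unfold shortest
    cases h : K.filter fun s => K.all fun t => !lenLt t s with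
    | nil => simp [h] at h1
    | cons x xs => simp
  simp only [List.mem_filter, lenLt, List.all_eq_true, Bool.not_eq_true', decide_eq_false_iff_not,
    not_lt] at h2
  exact ⟨h2.1, h2.2 t ht⟩

/-- A schedule with idle places becomes perfect after adding dummy jobs. -/
theorem sch_of_pad {α : Type*} [DecidableEq α] {r : α → α → Prop} (τ : α → ℕ) (M : ℕ) :
    ∀ A B : Finset α, Disjoint A B → (∀ a ∈ A, τ a < M) →
      (∀ t, (A.filter fun a => τ a = t).card ≤ 3) → (∀ a ∈ A, ∀ b ∈ A, r a b → τ a < τ b) →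
      (∀ b ∈ B, ∀ x, ¬ r b x ∧ ¬ r x b) → A.card + B.card = 3 * M → Sch r (A ∪ B) := by
  induction M with
  | zero =>
    intro A B _ _ _ _ _ h
    obtain rfl : A = ∅ := Finset.card_eq_zero.1 (by omega)
    obtain rfl : B = ∅ := Finset.card_eq_zero.1 (by omega)
    simpa using Sch.empty
  | succ M ih =>
    intro A B hd h1 h2 h3 h4 h5
    have hsplit := Finset.card_filter_add_card_filter_not (s := A) fun a => τ a = M
    have hlt : ∀ a ∈ A.filter fun a => ¬ τ a = M, τ a < M := fun a ha => by
      obtain ⟨h6, h7⟩ := Finset.mem_filter.1 ha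
      have := h1 a h6
      omega
    have h2' : ∀ t, ((A.filter fun a => ¬ τ a = M).filter fun a => τ a = t).card ≤ 3 := fun t =>
      (Finset.card_le_card (Finset.filter_subset_filter _ (Finset.filter_subset _ _))).trans (h2 t)
    have hcount : (A.filter fun a => ¬ τ a = M).card ≤ 3 * M := by
      simpa using Finset.card_le_mul_card_image_of_maps_to (f := τ) (t := Finset.range M)
        (fun a ha => Finset.mem_range.2 (hlt a ha)) 3 fun t _ => h2' t
    have h6 := h2 M
    obtain ⟨B₀, hB₀, hc⟩ := Finset.exists_subset_card_eq (s := B)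
      (n := 3 - (A.filter fun a => τ a = M).card) (by omega)
    have hc' := Finset.card_sdiff_add_card_eq_card hB₀
    have e : A ∪ B = ((A.filter fun a => ¬ τ a = M) ∪ (B \ B₀)) ∪
        ((A.filter fun a => τ a = M) ∪ B₀) := by
      ext x
      have := @hB₀ x
      simp only [Finset.mem_union, Finset.mem_filter, Finset.mem_sdiff]
      tauto
    rw [e]
    have hd' := Finset.disjoint_left.1 hd
    refine Sch.cat (ih _ _ (hd.mono (Finset.filter_subset _ _) Finset.sdiff_subset) hlt h2'
      (fun a ha b hb => h3 a (Finset.mem_filter.1 ha).1 b (Finset.mem_filter.1 hb).1)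
      (fun b hb => h4 b (Finset.mem_sdiff.1 hb).1) (by omega)) (Sch.triple ?_ ?_) ?_ ?_
    · rw [Finset.card_union_of_disjoint (hd.mono (Finset.filter_subset _ _) hB₀)]
      omega
    · intro x hx y hy hxy
      rcases Finset.mem_union.1 hx with hx | hx
      · rcases Finset.mem_union.1 hy with hy | hy
        · obtain ⟨a1, a2⟩ := Finset.mem_filter.1 hx
          obtain ⟨b1, b2⟩ := Finset.mem_filter.1 hy
          have := h3 x a1 y b1 hxy
          omega
        · exact (h4 y (hB₀ hy) x).2 hxy
      · exact (h4 x (hB₀ hx) y).1 hxy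
    · rw [Finset.disjoint_left]
      intro x hx hy
      have := @hB₀ x
      have := @hd' x
      simp only [Finset.mem_union, Finset.mem_filter, Finset.mem_sdiff] at hx hy
      tauto
    · intro x hx y hy hyx
      rcases Finset.mem_union.1 hx with hx | hx
      · rcases Finset.mem_union.1 hy with hy | hy
        · obtain ⟨b1, b2⟩ := Finset.mem_filter.1 hy
          have := h3 y b1 x (Finset.mem_filter.1 hx).1 hyx
          have := hlt x hx
          omega
        · exact (h4 y (hB₀ hy) x).1 hyx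
      · exact (h4 x (Finset.mem_sdiff.1 hx).1 y).2 hyx

end Crest.Agent.R286
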