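import Crest.Agent.R286.DP

/-!
# Correctness of the algorithm
-/

set_option autoImplicit false

namespace Crest.Agent.R286

open Crest.Enc Crest.Sched3

variable {n : ℕ} {E : Fin n → Fin n → Bool}

theorem UOf_prec : UOf (precCode n E) = rangeU (un n ++ un n ++ un n) := by rw [UOf, nOf_prec]

theorem mem_VOf {x : J} : x ∈ VOf (precCode n E) ↔ x.length < n := by
  rw [VOf, nOf_prec, mem_rangeU, length_un]

theorem ROf_irrefl (hac : Acyclic E) (x : J) : (x, x) ∉ ROf (precCode n E) := by
  intro h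
  obtain ⟨u, v, e1, e2, h1⟩ := (ROf_spec E).2.1 x x h
  obtain rfl : u = v := Fin.ext (un_inj (e1.symm.trans e2))
  exact hac u h1

theorem ROf_lt {x y : J} (h : (x, y) ∈ ROf (precCode n E)) : x.length < n ∧ y.length < n := by
  obtain ⟨u, v, rfl, rfl, -⟩ := (ROf_spec E).2.1 x y h
  simp

theorem ROf_mem (x y : J) (h : (x, y) ∈ ROf (precCode n E)) :
    x ∈ rangeU (un n ++ un n ++ un n) ∧ y ∈ rangeU (un n ++ un n ++ un n) := by
  have := ROf_lt h
  simp only [mem_rangeU, List.length_append, length_un]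
  omega

theorem exists_base (hac : Acyclic E) : ∃ τ : Fin n → ℕ, IsSchedule E τ ∧ ∀ v, τ v ≤ n := by
  classical
  let c : Fin n → ℤ := fun u => wt (rangeU (un n ++ un n ++ un n)) (ROf (precCode n E)) (un u)
  have hmem : ∀ u : Fin n, un u ∈ rangeU (un n ++ un n ++ un n) := fun u => by
    have := u.2
    simp only [mem_rangeU, List.length_append, length_un]
    omega
  let τ : Fin n → ℕ := fun v => (Finset.univ.filter fun u => c u ≤ c v).card
  have hlt : ∀ u v, c u < c v → τ u < τ v := fun u v h =>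
    Finset.card_lt_card ⟨fun w hw => by
      simp only [Finset.mem_filter, Finset.mem_univ, true_and] at hw ⊢
      exact hw.trans h.le, fun hh => by
      have := hh (Finset.mem_filter.2 ⟨Finset.mem_univ v, le_rfl⟩)
      simp only [Finset.mem_filter, Finset.mem_univ, true_and] at this
      omega⟩
  refine ⟨τ, ⟨fun v => Finset.card_pos.2 ⟨v, by simp⟩, fun t => ?_, fun u v h => hlt u v
    (wt_mono (ROf_spec E).2.2 (ROf_irrefl hac) ROf_mem ((ROf_spec E).1 u v h))⟩,
    fun v => (Finset.card_filter_le _ _).trans (by simp)⟩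
  refine (Finset.card_le_one.2 fun u hu v hv => ?_).trans (by omega)
  have h1 := (Finset.mem_filter.1 hu).2
  have h2 := (Finset.mem_filter.1 hv).2
  rcases lt_trichotomy (c u) (c v) with h | h | h
  · have := hlt u v h
    omega
  · exact Fin.ext (un_inj (wt_inj (hmem u) (hmem v) h))
  · have := hlt v u h
    omega

theorem nodup_FOf (Φ : List (List (List (List Bool)))) (k : ℕ) (x : List Bool) :
    ∀ S ∈ FOf Φ k x, S.Nodup := by
  intro S hS
  obtain ⟨q, -, rfl⟩ := List.mem_map.1 hS
  exact (nodup_rangeU _).filter _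

theorem exists_cover {Φ : List (List (List (List Bool)))}
    (hΦ : ∀ s : List (List Bool) → Prop, ∃ φ ∈ Φ, ∀ v : List (List Bool), v.length = 67 →
      (∀ b ∈ v, b.length = 6) → (v ∈ φ ↔ s v)) (hn : 1 ≤ n) (hac : Acyclic E) {τ : Fin n → ℕ}
    (hτ : IsSchedule E τ) {M : ℕ} (hM : ∀ v, τ v ≤ M) (hMn : M ≤ n) :
    ∃ t ∈ covers (VOf (precCode n E))
      (dp (ROf (precCode n E)) (FOf Φ 67 (precCode n E)) (UOf (precCode n E))), t.length = M := by
  obtain ⟨h1, h2, h3⟩ := hτ
  have hτlt : ∀ u v, Relation.TransGen (fun a b => E a b = true) u v → τ u < τ v := by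
    intro u v h4
    induction h4 with
    | single h => exact h3 _ _ h
    | tail _ h ih => exact ih.trans (h3 _ _ h)
  have hn3 : n ≤ 3 * M := by
    simpa using Finset.card_le_mul_card_image_of_maps_to (f := τ) (s := Finset.univ)
      (t := Finset.Icc 1 M) (fun a _ => Finset.mem_Icc.2 ⟨h1 a, hM a⟩) 3 fun t _ => h2 t
  set R := ROf (precCode n E) with hR
  set N : J := un n ++ un n ++ un n with hN
  have hNlen : N.length = 3 * n := by simp [hN]; omega
  have hfam := fam_Dfn (N := N) (List.length_pos_iff.1 (by omega)) R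
  have hcard : ∀ m, (rangeU (un m)).toFinset.card = m := fun m => by
    rw [List.toFinset_card_of_nodup (nodup_rangeU _), length_rangeU, length_un]
  have hmem : ∀ m x, x ∈ (rangeU (un m)).toFinset ↔ x.length < m := fun m x => by
    rw [List.mem_toFinset, mem_rangeU, length_un]
  have hsub : (rangeU (un n)).toFinset ⊆ (rangeU (un (3 * M))).toFinset := fun x hx =>
    (hmem _ x).2 (((hmem _ x).1 hx).trans_le hn3)
  have hsch : Sch (fun x y => (x, y) ∈ R) (rangeU (un (3 * M))).toFinset := by
    rw [← Finset.union_sdiff_of_subset hsub]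
    refine sch_of_pad (fun x => if h : x.length < n then τ ⟨_, h⟩ - 1 else 0) M _ _
      Finset.disjoint_sdiff (fun a ha => ?_) (fun t => ?_) (fun a _ b _ hab => ?_)
      (fun b hb x => ?_) ?_
    · rw [dif_pos ((hmem _ a).1 ha)]
      have := h1 ⟨_, (hmem _ a).1 ha⟩
      have := hM ⟨_, (hmem _ a).1 ha⟩
      omega
    · refine le_trans (Finset.card_le_card (t := (Finset.univ.filter fun v => τ v = t + 1).image
        fun v : Fin n => un v) fun a ha => ?_) (Finset.card_image_le.trans (h2 _))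
      obtain ⟨h4, h5⟩ := Finset.mem_filter.1 ha
      have h6 := (hmem _ a).1 h4
      rw [dif_pos h6] at h5
      have := h1 ⟨_, h6⟩
      exact Finset.mem_image.2 ⟨⟨_, h6⟩, Finset.mem_filter.2 ⟨Finset.mem_univ _, by omega⟩,
        un_length a⟩
    · obtain ⟨u, v, rfl, rfl, h4⟩ := (ROf_spec E).2.1 a b hab
      have h5 : τ u < τ v := hτlt u v h4
      have := h1 u
      simp only [length_un, Fin.is_lt, dif_pos, Fin.eta]
      omega
    · have h4 := (Finset.mem_sdiff.1 hb).2
      rw [hmem] at h4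
      exact ⟨fun h => h4 (ROf_lt h).1, fun h => h4 (ROf_lt h).2⟩
    · rw [Finset.card_sdiff_of_subset hsub, hcard, hcard]
      omega
  have hSU : ∀ x ∈ (rangeU (un (3 * M))).toFinset, x ∈ rangeU N := fun x hx => by
    have := (hmem _ x).1 hx
    rw [mem_rangeU]
    omega
  have hin := hsch.schIn (ROf_spec E).2.2 (ROf_irrefl hac)
    (fun x y h => (wt_mono (ROf_spec E).2.2 (ROf_irrefl hac) ROf_mem h).le) hfam hSU
    (fun x hx y hy h => wt_inj (hSU x hx) (hSU y hy) h)
    (fun x y h _ => (hmem _ x).2 ((ROf_lt h).1.trans_le hn3))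
    (hfam.mono (by omega : 1 ≤ 17) (Dfn.one (e := un (3 * M - 1))
      (by rw [mem_rangeU, length_un]; omega) fun x _ y _ h hx => by
        have h4 := (ty_eq h).2.2.2.2.2
        have h5 := (hmem _ x).1 hx
        rw [length_un] at h4
        exact (hmem _ y).2 (by omega)))
  have hF := nodup_FOf Φ 67 (precCode n E)
  have hP : ∀ X : Set J, Dfn (rangeU N) R 67 X →
      ∃ S ∈ FOf Φ 67 (precCode n E), ∀ x, x ∈ S ↔ x ∈ rangeU N ∧ x ∈ X := fun X hX => by
    rw [FOf, UOf_prec]
    exact exists_mem_family hΦ hX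
  have h0 : [] ∈ FOf Φ 67 (precCode n E) := by
    obtain ⟨S, hS, h⟩ := hP _ (hfam.mono (Nat.zero_le _) (hfam.compl hfam.univ))
    have e : S = [] := List.eq_nil_iff_forall_not_mem.2 fun x hx => ((h x).1 hx).2 trivial
    rwa [e] at hS
  obtain ⟨t, ht, e⟩ := iter_complete hF h0 (fun A hA => hP _ hA) hin hSU
    ((UOf (precCode n E)).length + 1) (by rw [hcard, UOf_prec, length_rangeU, ← hN]; omega)
  have hv := iter_valid hF _ t ht
  refine ⟨t, List.mem_filter.2 ⟨by rwa [dp_eq], ?_⟩, ?_⟩
  · simp only [List.all_eq_true, decide_eq_true_eq]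
    intro v hv
    rw [← List.mem_toFinset, e, hmem]
    exact (mem_VOf.1 hv).trans_le hn3
  · have h4 := hv.length_flatten
    rw [← List.toFinset_card_of_nodup hv.nodup, e, hcard] at h4
    omega

theorem alg_correct {Φ : List (List (List (List Bool)))}
    (hΦ : ∀ s : List (List Bool) → Prop, ∃ φ ∈ Φ, ∀ v : List (List Bool), v.length = 67 →
      (∀ b ∈ v, b.length = 6) → (v ∈ φ ↔ s v)) (hn : 1 ≤ n) (hac : Acyclic E) :
    ∃ τ : Fin n → ℕ, alg Φ 67 (precCode n E) = listCode (List.ofFn τ) ∧ IsSchedule E τ ∧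
      ∀ τ' : Fin n → ℕ, IsSchedule E τ' → Finset.univ.sup τ ≤ Finset.univ.sup τ' := by
  obtain ⟨τ₀, hτ₀, hτ₀n⟩ := exists_base hac
  obtain ⟨t₀, ht₀, e₀⟩ := exists_cover hΦ hn hac hτ₀ hτ₀n le_rfl
  obtain ⟨hs, hs₀⟩ : sOf Φ 67 (precCode n E) ∈ _ ∧ (sOf Φ 67 (precCode n E)).length ≤ _ :=
    shortest_spec ht₀
  have hmin : ∀ τ' : Fin n → ℕ, IsSchedule E τ' →
      (sOf Φ 67 (precCode n E)).length ≤ Finset.univ.sup τ' := fun τ' hτ' => by
    rcases le_total n (Finset.univ.sup τ') with h | h
    · omega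
    · obtain ⟨t, ht, e⟩ := exists_cover hΦ hn hac hτ'
        (fun v => Finset.le_sup (Finset.mem_univ v)) h
      exact e ▸ (shortest_spec ht).2
  obtain ⟨hs1, hs2⟩ := List.mem_filter.1 hs
  rw [dp_eq] at hs1
  have hv := iter_valid (nodup_FOf Φ 67 _) _ _ hs1
  simp only [List.all_eq_true, decide_eq_true_eq] at hs2
  have halg : alg Φ 67 (precCode n E) = natCode n ++ ((List.finRange n).map fun v : Fin n =>
      natCode (slotU (sOf Φ 67 (precCode n E)) (un v)).length).flatten := by
    rw [alg, nOf_prec, VOf_prec, codeU_eq, length_un, List.map_map]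
    simp only [Function.comp_def, codeU_eq]
  generalize sOf Φ 67 (precCode n E) = s at *
  have hcov : ∀ v : Fin n, un v ∈ s.flatten := fun v => hs2 _ (mem_VOf.2 (by simp))
  have hlt : ∀ v : Fin n, s.findIdx (fun T => decide (un v ∈ T)) < s.length := fun v => by
    obtain ⟨T, hT, h⟩ := List.mem_flatten.1 (hcov v)
    exact List.findIdx_lt_length_of_exists ⟨T, hT, by simpa using h⟩
  have hin : ∀ v : Fin n, un v ∈ s[s.findIdx (fun T => decide (un v ∈ T))]'(hlt v) := fun v => by
    simpa using List.findIdx_getElem (w := hlt v)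
  refine ⟨fun v => s.findIdx (fun T => decide (un v ∈ T)) + 1, ?_, ⟨fun v => Nat.le_add_left _ _,
    fun t => ?_, fun u v h => ?_⟩, fun τ' hτ' => ?_⟩
  · rw [halg, listCode, List.length_ofFn, List.ofFn_eq_map, List.map_map]
    simp only [Function.comp_def, length_slotU s _ (hcov _)]
  · rcases (Finset.univ.filter fun v : Fin n =>
      s.findIdx (fun T => decide (un v ∈ T)) + 1 = t).eq_empty_or_nonempty with h | ⟨v₀, hv₀⟩
    · simp [h]
    · have e₀ := (Finset.mem_filter.1 hv₀).2
      refine le_trans (Finset.card_le_card_of_injOn (fun v : Fin n => un v)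
        (t := (s[s.findIdx (fun T => decide (un v₀ ∈ T))]'(hlt v₀)).toFinset) (fun v hv' => ?_)
        fun u _ v _ h => Fin.ext (un_inj h)) ((List.toFinset_card_le _).trans
          (hv.len _ (List.getElem_mem _)).le)
      have e₁ := (Finset.mem_filter.1 (Finset.mem_coe.1 hv')).2
      have e₂ : s.findIdx (fun T => decide (un v ∈ T)) =
          s.findIdx (fun T => decide (un v₀ ∈ T)) := Nat.add_right_cancel (e₁.trans e₀.symm)
      have := hin v
      simp only [e₂] at this
      exact Finset.mem_coe.2 (List.mem_toFinset.2 this)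
  · have hR := (ROf_spec E).1 u v h
    refine Nat.succ_lt_succ (lt_of_not_ge fun hge => ?_)
    rcases hge.eq_or_lt with he | he
    · have := hin v
      simp only [he] at this
      exact hv.anti _ (List.getElem_mem _) _ (hin u) _ this hR
    · exact List.pairwise_iff_getElem.1 hv.ord _ _ (hlt v) (hlt u) he _ (hin v) _ (hin u) hR
  · exact Finset.sup_le fun v _ => (Nat.succ_le_of_lt (hlt v)).trans (hmin τ' hτ')

end Crest.Agent.R286
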