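import Crest.Agent.Lib.PolyTime.Bridge

/-!
# Explicit polynomial degrees on top of `Cmp`

* `CD D f` : `f` is computable at cost `O(sz a ^ (D + 1))`.
* `Lin f`  : the output of `f` has size `O(sz a)`.
* `LD D f` : both; closed under composition with the same `D` (a `fun_prop` predicate; every
  loop over a list raises `D` by one).
-/

set_option autoImplicit false

namespace Crest.Agent.R286

open Crest.Agent.Lib.PolyTime

variable {α β γ δ σ : Type*} [PEnc α] [PEnc β] [PEnc γ] [PEnc δ] [PEnc σ] {D : ℕ}

/-- Cost of degree `D + 1`. -/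
def CD (D : ℕ) (f : α → β) : Prop := ∃ C : ℕ, Cmp f fun a => C * sz a ^ (D + 1)

/-- A quantity of degree `e` in the size of the argument. -/
def Deg (e : ℕ) (g : α → ℕ) : Prop := ∃ C : ℕ, ∀ a, g a ≤ C * sz a ^ e

/-- Cost of degree `D + 1` and output of linear size. -/
@[fun_prop]
def LD (D : ℕ) (f : α → β) : Prop := CD D f ∧ Deg 1 fun a => sz (f a)

namespace Deg
variable {e e' : ℕ} {g h : α → ℕ}

theorem mono (hh : Deg e h) (le : ∀ a, g a ≤ h a) : Deg e g := by
  obtain ⟨C, hC⟩ := hh
  exact ⟨C, fun a => (le a).trans (hC a)⟩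

theorem up (hg : Deg e g) (he : e ≤ e') : Deg e' g := by
  obtain ⟨C, hC⟩ := hg
  exact ⟨C, fun a => (hC a).trans
    (Nat.mul_le_mul_left _ (Nat.pow_le_pow_right (one_le_sz a) he))⟩

theorem const (c : ℕ) : Deg e fun _ : α => c :=
  ⟨c, fun a => Nat.le_mul_of_pos_right _ (Nat.pow_pos (sz_pos a))⟩

theorem sz_id : Deg 1 fun a : α => sz a := ⟨1, by simp⟩

theorem add (hg : Deg e g) (hh : Deg e h) : Deg e fun a => g a + h a := by
  obtain ⟨C, hC⟩ := hg
  obtain ⟨C', hC'⟩ := hh
  exact ⟨C + C', fun a => by rw [Nat.add_mul]; exact Nat.add_le_add (hC a) (hC' a)⟩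

theorem mul (hg : Deg e g) (hh : Deg e' h) : Deg (e + e') fun a => g a * h a := by
  obtain ⟨C, hC⟩ := hg
  obtain ⟨C', hC'⟩ := hh
  exact ⟨C * C', fun a => (Nat.mul_le_mul (hC a) (hC' a)).trans_eq (by ring)⟩

theorem cmul (c : ℕ) (hg : Deg e g) : Deg e fun a => c * g a := by
  simpa using (const (e := 0) c).mul hg

theorem pow (hg : Deg e g) (k : ℕ) : Deg (e * k) fun a => g a ^ k := by
  obtain ⟨C, hC⟩ := hg
  exact ⟨C ^ k, fun a => (Nat.pow_le_pow_left (hC a) k).trans_eq (by rw [mul_pow, pow_mul])⟩

theorem comp {g : β → ℕ} {f : α → β} (hg : Deg e g) (hf : Deg e' fun a => sz (f a)) :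
    Deg (e' * e) fun a => g (f a) := by
  obtain ⟨C, hC⟩ := hg
  exact ((hf.pow e).cmul C).mono fun a => hC _

theorem comp₁ {g : β → ℕ} {f : α → β} (hg : Deg e g) (hf : Deg 1 fun a => sz (f a)) :
    Deg e fun a => g (f a) := by
  simpa using hg.comp hf

end Deg

namespace CD

theorem of_cmp {f : α → β} {T : α → ℕ} (h : Cmp f T) (hT : Deg (D + 1) T) : CD D f := by
  obtain ⟨C, hC⟩ := hT
  exact ⟨C, h.mono hC⟩

theorem exists_cmp {f : α → β} (h : CD D f) : ∃ T, Deg (D + 1) T ∧ Cmp f T := by
  obtain ⟨C, hC⟩ := h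
  exact ⟨_, ⟨C, fun _ => le_rfl⟩, hC⟩

theorem mono {f : α → β} {D' : ℕ} (h : CD D f) (hD : D ≤ D') : CD D' f := by
  obtain ⟨T, hT, h⟩ := h.exists_cmp
  exact of_cmp h (hT.up (by omega))

theorem congr {f g : α → β} (h : CD D f) (e : ∀ a, f a = g a) : CD D g := funext e ▸ h

theorem of_enc {f : α → β} {g : α → γ} (hg : CD D g) (h : ∀ a, enc (g a) = enc (f a)) :
    CD D f := by
  obtain ⟨C, hg⟩ := hg
  exact ⟨C, hg.of_enc id (fun _ => rfl) h⟩

theorem comp {f : β → γ} {g : α → β} {d e : ℕ} (hf : CD d f) (hg : CD D g)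
    (hs : Deg e fun a => sz (g a)) (hd : e * (d + 1) ≤ D + 1) : CD D fun a => f (g a) := by
  obtain ⟨T, hT, hf⟩ := hf.exists_cmp
  obtain ⟨U, hU, hg⟩ := hg.exists_cmp
  exact of_cmp (hf.comp hg) (hU.add ((hT.comp hs).up hd))

theorem comp₁ {f : β → γ} {g : α → β} (hf : CD D f) (hg : LD D g) : CD D fun a => f (g a) :=
  hf.comp hg.1 hg.2 (by omega)

theorem pair {f : α → β} {g : α → γ} (hf : CD D f) (hg : CD D g) :
    CD D fun a => (f a, g a) := by
  obtain ⟨T, hT, hf⟩ := hf.exists_cmp
  obtain ⟨U, hU, hg⟩ := hg.exists_cmp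
  exact of_cmp (hf.pair hg) ((hT.add hU).add (Deg.const 1))

theorem caseV {c : α → γ} {f : α → β} (hc : CD D c)
    (h₀ : CD D fun a : {a // enc (c a) = V.nil} => f a.1)
    (h₁ : CD D fun a : {a // enc (c a) ≠ V.nil} => f a.1) : CD D f := by
  obtain ⟨T, hT, hc⟩ := hc.exists_cmp
  obtain ⟨p, h₀⟩ := h₀
  obtain ⟨q, h₁⟩ := h₁
  refine of_cmp (hc.caseV (U := fun a => (p + q) * sz a ^ (D + 1)) (h₀.mono fun a => ?_)
    (h₁.mono fun a => ?_)) (hT.add ⟨p + q, fun _ => le_rfl⟩)
  · exact Nat.mul_le_mul_right _ (Nat.le_add_right _ _)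
  · exact Nat.mul_le_mul_right _ (Nat.le_add_left _ _)

theorem loop {ini : α → σ} {step : σ → β ⊕ σ} {f : α → β} {N B : α → ℕ} {d e k : ℕ}
    (hi : CD D ini) (hs : CD d step) (hN : Deg k N) (hB : Deg e B) (hd : k + e * (d + 1) ≤ D + 1)
    (h : ∀ a, Runs step (B a) (ini a) (f a) (N a)) : CD D f := by
  obtain ⟨U, hU, hi⟩ := hi.exists_cmp
  obtain ⟨C, hs⟩ := hs
  exact of_cmp (Cmp.loop (τ := fun n => C * n ^ (d + 1))
    (fun _ _ h => Nat.mul_le_mul_left _ (Nat.pow_le_pow_left h _)) hi hs h)
    (hU.add ((hN.mul ((hB.pow (d + 1)).cmul C)).up hd))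

end CD

namespace LD

theorem mono {f : α → β} {D' : ℕ} (h : LD D f) (hD : D ≤ D') : LD D' f := ⟨h.1.mono hD, h.2⟩

theorem congr {f g : α → β} (h : LD D f) (e : ∀ a, f a = g a) : LD D g := funext e ▸ h

theorem cast {f : α → β} (h : ∀ a, enc (f a) = enc a) : LD D f :=
  ⟨.of_cmp (Cmp.cast h) (Deg.sz_id.up (by omega)), Deg.sz_id.mono fun a => (congrArg V.size (h a)).le⟩

@[fun_prop] theorem id' : LD D fun a : α => a := cast fun _ => rfl

@[fun_prop] theorem const (b : β) : LD D fun _ : α => b :=
  ⟨.of_cmp (Cmp.const b) ((Deg.sz_id.cmul _).up (by omega)), Deg.const _⟩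

@[fun_prop] theorem comp {f : β → γ} {g : α → β} (hf : LD D f) (hg : LD D g) :
    LD D fun a => f (g a) := ⟨hf.1.comp₁ hg, hf.2.comp₁ hg.2⟩

theorem of_enc {f : α → β} {g : α → γ} (hg : LD D g) (h : ∀ a, enc (g a) = enc (f a)) :
    LD D f := ⟨hg.1.of_enc h, hg.2.mono fun a => (congrArg V.size (h a)).ge⟩

theorem enc' {f : α → β} (hf : LD D f) : LD D fun a => enc (f a) := hf.of_enc fun _ => rfl

theorem left {f : α → V} (hf : LD D f) : LD D fun a => (f a).left :=
  comp ⟨.of_cmp Cmp.left (Deg.sz_id.up (by omega)), Deg.sz_id.mono fun v => v.size_left_le⟩ hf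

theorem right {f : α → V} (hf : LD D f) : LD D fun a => (f a).right :=
  comp ⟨.of_cmp Cmp.right (Deg.sz_id.up (by omega)), Deg.sz_id.mono fun v => v.size_right_le⟩ hf

@[fun_prop] theorem pair {f : α → β} {g : α → γ} (hf : LD D f) (hg : LD D g) :
    LD D fun a => (f a, g a) := ⟨hf.1.pair hg.1, (hf.2.add hg.2).add (Deg.const 1)⟩

@[fun_prop] theorem fst {f : α → β × γ} (hf : LD D f) : LD D fun a => (f a).1 :=
  hf.enc'.left.of_enc fun _ => rfl

@[fun_prop] theorem snd {f : α → β × γ} (hf : LD D f) : LD D fun a => (f a).2 :=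
  hf.enc'.right.of_enc fun _ => rfl

@[fun_prop] theorem val {p : β → Prop} {f : α → Subtype p} (hf : LD D f) :
    LD D fun a => (f a).1 := hf.of_enc fun _ => rfl

theorem restrict {f : α → β} (hf : LD D f) (p : α → Prop) : LD D fun a : Subtype p => f a.1 :=
  hf.comp (val id')

end LD

namespace CD

theorem restrict {f : α → β} (hf : CD D f) (p : α → Prop) : CD D fun a : Subtype p => f a.1 :=
  hf.comp₁ (LD.val LD.id')

theorem cond {c : α → Bool} {f g : α → β} (hc : CD D c) (hf : CD D f) (hg : CD D g) :
    CD D fun a => cond (c a) (f a) (g a) := by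
  refine hc.caseV ?_ ?_
  · refine (hg.restrict _).congr fun a => ?_
    have := a.2
    cases h : c a.1 <;> simp_all
  · refine (hf.restrict _).congr fun a => ?_
    have := a.2
    cases h : c a.1 <;> simp_all

theorem listCasesOn {l : α → List β} {f : α → γ} {g : α → β → List β → γ} (hl : LD D l)
    (hf : CD D f) (hg : CD D fun p : α × β × List β => g p.1 p.2.1 p.2.2) :
    CD D fun a => (List.casesOn (l a) (f a) (g a) : γ) := by
  refine hl.1.caseV ?_ ?_
  · refine (hf.restrict _).congr fun a => ?_
    have := a.2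
    cases h : l a.1 <;> simp_all
  · have key : ∀ a : {a // enc (l a) ≠ V.nil}, l a.1 ≠ [] := fun a => by
      have := a.2
      cases h : l a.1 <;> simp_all
    have h1 : LD D fun a : {a // enc (l a) ≠ V.nil} => ((l a.1).head (key a), (l a.1).tail) :=
      (hl.restrict _).of_enc fun a => by
        obtain ⟨x, xs, hx⟩ := List.exists_cons_of_ne_nil (key a)
        simp [hx]
    refine (comp₁ hg ((LD.val LD.id').pair h1)).congr fun a => ?_
    obtain ⟨x, xs, hx⟩ := List.exists_cons_of_ne_nil (key a)
    simp [hx]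

theorem inl {f : α → β} (hf : CD D f) : CD D fun a => (Sum.inl (f a) : β ⊕ γ) :=
  ((LD.const false).1.pair hf).of_enc fun _ => rfl

theorem inr {f : α → γ} (hf : CD D f) : CD D fun a => (Sum.inr (f a) : β ⊕ γ) :=
  ((LD.const true).1.pair hf).of_enc fun _ => rfl

theorem cons {f : α → β} {l : α → List β} (hf : CD D f) (hl : CD D l) :
    CD D fun a => f a :: l a := (hf.pair hl).of_enc fun _ => rfl

/-- Left fold with a bound of degree `e` on the list and on all accumulators. -/
theorem foldl {l : α → List β} {g : α → γ} {h : α → γ → β → γ} {d e : ℕ} (hl : CD D l)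
    (hg : CD D g) (hh : CD d fun p : α × γ × β => h p.1 p.2.1 p.2.2) {B : α → ℕ} (hB : Deg e B)
    (hle : Deg e fun a => sz (l a)) (he : 1 ≤ e) (hd : e + e * (d + 1) ≤ D + 1)
    (hb : ∀ a (l₁ : List β), l₁ <+: l a → sz (l₁.foldl (h a) (g a)) ≤ B a) :
    CD D fun a => (l a).foldl (h a) (g a) := by
  let step : α × List β × γ → γ ⊕ (α × List β × γ) := fun s =>
    List.casesOn s.2.1 (Sum.inl s.2.2) fun x xs => Sum.inr (s.1, xs, h s.1 s.2.2 x)
  have hs : CD d step := by
    refine listCasesOn (by fun_prop) (inl (LD.snd (LD.snd LD.id')).1) (inr ?_)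
    have h1 : CD d fun p : (α × List β × γ) × β × List β => h p.1.1 p.1.2.2 p.2.1 :=
      comp₁ hh (g := fun p : (α × List β × γ) × β × List β => (p.1.1, p.1.2.2, p.2.1))
        (by fun_prop)
    exact (LD.fst (LD.fst LD.id')).1.pair ((LD.snd (LD.snd LD.id')).1.pair h1)
  refine loop (ini := fun a => (a, l a, g a)) (N := fun a => sz (l a))
    (B := fun a => sz a + sz (l a) + B a + 2) (LD.id'.1.pair (hl.pair hg)) hs hle
    ((((Deg.sz_id.up he).add hle).add hB).add (Deg.const 2)) hd fun a => ?_
  have key : ∀ l₂ l₁ : List β, l₁ ++ l₂ = l a →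
      Runs step (sz a + sz (l a) + B a + 2) (a, l₂, l₁.foldl (h a) (g a))
        ((l a).foldl (h a) (g a)) (l₂.length + 1) := by
    intro l₂
    induction l₂ with
    | nil =>
      intro l₁ e
      have h1 := hb a l₁ ⟨_, e⟩
      have h2 := one_le_sz (l a)
      refine .stop _ (by simp; omega) ?_
      simp [step, ← e]
    | cons x xs ih =>
      intro l₁ e
      have h1 := hb a l₁ ⟨_, e⟩
      have h2 : sz (x :: xs) ≤ sz (l a) := sz_le_of_sublist (e ▸ List.sublist_append_right _ _)
      have h3 := ih (l₁ ++ [x]) (by simpa using e)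
      rw [List.foldl_append] at h3
      exact .next (by simp at h2 ⊢; omega) rfl h3
  exact (key (l a) [] rfl).mono le_rfl (length_lt_sz _)

end CD

namespace LD

@[fun_prop] theorem cond {c : α → Bool} {f g : α → β} (hc : LD D c) (hf : LD D f) (hg : LD D g) :
    LD D fun a => cond (c a) (f a) (g a) :=
  ⟨hc.1.cond hf.1 hg.1, (hf.2.add hg.2).mono fun a => by dsimp only; cases c a <;> simp⟩

@[fun_prop] theorem not {f : α → Bool} (hf : LD D f) : LD D fun a => !f a :=
  (hf.cond (const false) (const true)).congr fun a => by cases f a <;> rfl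

@[fun_prop] theorem and {f g : α → Bool} (hf : LD D f) (hg : LD D g) : LD D fun a => f a && g a :=
  (hf.cond hg (const false)).congr fun a => by cases f a <;> rfl

@[fun_prop] theorem or {f g : α → Bool} (hf : LD D f) (hg : LD D g) : LD D fun a => f a || g a :=
  (hf.cond (const true) hg).congr fun a => by cases f a <;> rfl

@[fun_prop] theorem xor {f g : α → Bool} (hf : LD D f) (hg : LD D g) :
    LD D fun a => xor (f a) (g a) :=
  (hf.cond hg.not hg).congr fun a => by cases f a <;> simp

@[fun_prop] theorem cons {f : α → β} {l : α → List β} (hf : LD D f) (hl : LD D l) :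
    LD D fun a => f a :: l a := (hf.pair hl).of_enc fun _ => rfl

@[fun_prop] theorem tail {l : α → List β} (hl : LD D l) : LD D fun a => (l a).tail :=
  hl.enc'.right.of_enc fun a => by cases l a <;> rfl

theorem listCasesOn {l : α → List β} {f : α → γ} {g : α → β → List β → γ} (hl : LD D l)
    (hf : LD D f) (hg : LD D fun p : α × β × List β => g p.1 p.2.1 p.2.2) :
    LD D fun a => (List.casesOn (l a) (f a) (g a) : γ) := by
  refine ⟨CD.listCasesOn hl hf.1 hg.1, ?_⟩
  obtain ⟨C, hC⟩ := hg.2
  refine (hf.2.add (((Deg.sz_id.add hl.2).add (Deg.const 1)).cmul C)).mono fun a => ?_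
  dsimp only
  cases h : l a with
  | nil => simp
  | cons x xs =>
    have := hC (a, x, xs)
    simp only [sz_pair, pow_one, sz_cons] at this ⊢
    omega

@[fun_prop] theorem headD {l : α → List β} {d : α → β} (hl : LD D l) (hd : LD D d) :
    LD D fun a => (l a).headD (d a) :=
  (listCasesOn (g := fun _ x _ => x) hl hd (by fun_prop)).congr fun a => by cases l a <;> rfl

@[fun_prop] theorem isEmpty {l : α → List β} (hl : LD D l) : LD D fun a => (l a).isEmpty :=
  (listCasesOn (g := fun _ _ _ => false) hl (const true) (const false)).congr fun a => by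
    cases l a <;> rfl

/-- Left fold with linearly bounded accumulators. -/
theorem foldl {l : α → List β} {g : α → γ} {h : α → γ → β → γ} (hl : LD (D + 1) l)
    (hg : LD (D + 1) g) (hh : CD D fun p : α × γ × β => h p.1 p.2.1 p.2.2) {B : α → ℕ}
    (hB : Deg 1 B) (hb : ∀ a (l₁ : List β), l₁ <+: l a → sz (l₁.foldl (h a) (g a)) ≤ B a) :
    LD (D + 1) fun a => (l a).foldl (h a) (g a) :=
  ⟨CD.foldl hl.1 hg.1 hh hB hl.2 le_rfl (by omega) hb, hB.mono fun a => hb a _ List.prefix_rfl⟩

/-- Left fold in which a round enlarges the accumulator by at most `c` times the list entry. -/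
theorem foldl_add {l : α → List β} {g : α → γ} {h : α → γ → β → γ} (hl : LD (D + 1) l)
    (hg : LD (D + 1) g) (hh : LD D fun p : α × γ × β => h p.1 p.2.1 p.2.2) (c : ℕ)
    (hb : ∀ a s x, sz (h a s x) ≤ sz s + c * (sz x + 1)) :
    LD (D + 1) fun a => (l a).foldl (h a) (g a) := by
  refine foldl hl hg hh.1 (hg.2.add (hl.2.cmul c)) fun a l₁ hl₁ => ?_
  have key : ∀ (l₁ : List β) (s : γ), sz (l₁.foldl (h a) s) ≤ sz s + c * sz l₁ := by
    intro l₁
    induction l₁ with
    | nil => simp
    | cons x xs ih =>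
      intro s
      have h1 := ih (h a s x)
      have h2 := hb a s x
      simp only [List.foldl_cons, sz_cons, Nat.mul_add] at h2 ⊢
      omega
  exact (key l₁ (g a)).trans
    (Nat.add_le_add_left (Nat.mul_le_mul_left _ (sz_le_of_sublist hl₁.sublist)) _)

@[fun_prop] theorem reverse {l : α → List β} (hl : LD (D + 1) l) :
    LD (D + 1) fun a => (l a).reverse := by
  refine (foldl_add (h := fun _ s x => x :: s) hl (const []) (by fun_prop) 1
    fun _ _ _ => by simp; omega).congr fun a => ?_
  rw [List.foldl_flip_cons_eq_append']; simp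

@[fun_prop] theorem append {l₁ l₂ : α → List β} (h₁ : LD (D + 1) l₁) (h₂ : LD (D + 1) l₂) :
    LD (D + 1) fun a => l₁ a ++ l₂ a := by
  refine (foldl_add (h := fun _ s x => x :: s) h₁.reverse h₂ (by fun_prop) 1
    fun _ _ _ => by simp; omega).congr fun a => ?_
  rw [List.foldl_flip_cons_eq_append']; simp

omit [PEnc β] [PEnc γ] in
theorem foldl_map_cons (f : β → γ) (l : List β) (s : List γ) :
    l.foldl (fun s x => f x :: s) s = (l.map f).reverse ++ s := by
  induction l generalizing s with
  | nil => simp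
  | cons x xs ih => simp [ih]

/-- `map` whose result is known to have linear size. -/
theorem map_of_sz {l : α → List β} {f : α → β → γ} (hl : LD (D + 1) l)
    (hf : CD D fun p : α × β => f p.1 p.2) (hs : Deg 1 fun a => sz ((l a).map (f a))) :
    LD (D + 1) fun a => (l a).map (f a) := by
  refine (foldl (h := fun a s x => f a x :: s) hl (const []) ?_ hs fun a l₁ h₁ => ?_).reverse.congr
    fun a => by simp
  · exact (hf.comp₁ (g := fun p : α × List γ × β => (p.1, p.2.2)) (by fun_prop)).cons
      (fst (snd id')).1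
  · simpa [foldl_map_cons] using sz_le_of_sublist (h₁.sublist.map (f a))

theorem sz_map_le {l : List β} {f : β → γ} {c : ℕ} (h : ∀ x ∈ l, sz (f x) ≤ c * sz x) :
    sz (l.map f) ≤ (c + 1) * sz l := by
  induction l with
  | nil => simp
  | cons x xs ih =>
    have h1 := h x (by simp)
    have h2 := ih fun y hy => h y (by simp [hy])
    simp only [List.map_cons, sz_cons, Nat.mul_add, Nat.add_mul] at h2 ⊢
    omega

/-- `map` whose entries are not larger than a multiple of the list entries. -/
theorem map_le {l : α → List β} {f : α → β → γ} (hl : LD (D + 1) l)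
    (hf : LD D fun p : α × β => f p.1 p.2) (c : ℕ) (hs : ∀ a x, sz (f a x) ≤ c * sz x) :
    LD (D + 1) fun a => (l a).map (f a) :=
  map_of_sz hl hf.1 ((hl.2.cmul (c + 1)).mono fun a => sz_map_le fun x _ => hs a x)

@[fun_prop] theorem flatten {l : α → List (List β)} (hl : LD (D + 2) l) :
    LD (D + 2) fun a => (l a).flatten := by
  refine (foldl_add (h := fun _ s x => x ++ s) hl.reverse (const []) (by fun_prop) 1
    fun _ s x => by have := sz_append x s; omega).congr fun a => ?_
  rw [List.foldl_reverse]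
  induction l a with
  | nil => rfl
  | cons x xs ih => simp [ih]

@[fun_prop] theorem filter {l : α → List β} {f : α → β → Bool} (hl : LD (D + 1) l)
    (hf : LD D fun p : α × β => f p.1 p.2) : LD (D + 1) fun a => (l a).filter (f a) := by
  have h1 : LD D fun p : α × List β × β => f p.1 p.2.2 :=
    comp hf (g := fun p : α × List β × β => (p.1, p.2.2)) (by fun_prop)
  refine (foldl_add (h := fun a s x => bif f a x then x :: s else s) hl.reverse (const [])
    (by fun_prop) 1 fun a s x => by cases f a x <;> simp; omega).congr fun a => ?_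
  rw [List.foldl_reverse]
  induction l a with
  | nil => rfl
  | cons x xs ih => cases h : f a x <;> simp [h, ih]

@[fun_prop] theorem all {l : α → List β} {f : α → β → Bool} (hl : LD (D + 1) l)
    (hf : LD D fun p : α × β => f p.1 p.2) : LD (D + 1) fun a => (l a).all (f a) :=
  (hl.filter (f := fun a x => !f a x) hf.not).isEmpty.congr fun a => by
    induction l a with
    | nil => rfl
    | cons x xs ih => cases h : f a x <;> simp_all

@[fun_prop] theorem any {l : α → List β} {f : α → β → Bool} (hl : LD (D + 1) l)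
    (hf : LD D fun p : α × β => f p.1 p.2) : LD (D + 1) fun a => (l a).any (f a) :=
  (hl.filter hf).isEmpty.not.congr fun a => by
    induction l a with
    | nil => rfl
    | cons x xs ih => cases h : f a x <;> simp_all

@[fun_prop] theorem zip {l₁ : α → List β} {l₂ : α → List γ} (h₁ : LD (D + 1) l₁)
    (h₂ : LD (D + 1) l₂) : LD (D + 1) fun a => (l₁ a).zip (l₂ a) := by
  let h : List γ × List (β × γ) → β → List γ × List (β × γ) := fun s x =>
    List.casesOn s.1 s fun y ys => (ys, (x, y) :: s.2)
  have key : ∀ (l : List β) (r : List γ) (acc : List (β × γ)),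
      (l.foldl h (r, acc)).2 = (l.zip r).reverse ++ acc := by
    intro l
    induction l with
    | nil => simp
    | cons x xs ih =>
      intro r acc
      cases r with
      | nil => simpa [h] using ih [] acc
      | cons y ys => simpa [h] using ih ys ((x, y) :: acc)
  refine (foldl_add (h := fun _ => h) (g := fun a => (l₂ a, [])) h₁ (by fun_prop)
    (listCasesOn (by fun_prop) (by fun_prop) (by fun_prop)) 1 ?_).snd.reverse.congr
    fun a => by simp [key]
  rintro _ ⟨r, acc⟩ x
  cases r <;> simp [h]; omega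

/-- Equality of trees, via a work list of pairs. -/
theorem beqV : LD (D + 1) fun p : V × V => decide (p.1 = p.2) := by
  let step : List (V × V) → Bool ⊕ List (V × V) := fun s =>
    List.casesOn s (Sum.inl true) fun q r =>
      bif decide (q.1 = V.nil) then (bif decide (q.2 = V.nil) then Sum.inr r else Sum.inl false)
      else bif decide (q.2 = V.nil) then Sum.inl false
      else Sum.inr ((q.1.left, q.2.left) :: (q.1.right, q.2.right) :: r)
  have hnil : CD 0 fun v : V => decide (v = V.nil) :=
    id'.1.caseV ((const true).1.congr fun a => by simpa using a.2)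
      ((const false).1.congr fun a => by simpa using a.2)
  have hs : CD 0 step := by
    refine CD.listCasesOn id' (const _).1 ?_
    have a1 : LD 0 fun p : List (V × V) × (V × V) × List (V × V) => p.2.1.1 := by fun_prop
    have a2 : LD 0 fun p : List (V × V) × (V × V) × List (V × V) => p.2.1.2 := by fun_prop
    have a3 : LD 0 fun p : List (V × V) × (V × V) × List (V × V) => p.2.2 := by fun_prop
    have h1 := hnil.comp₁ a1
    have h2 := hnil.comp₁ a2
    exact h1.cond (h2.cond a3.1.inr (const _).1) (h2.cond (const _).1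
      ((a1.left.pair a2.left).cons ((a1.right.pair a2.right).cons a3)).1.inr)
  have key : ∀ (n : ℕ) (s : List (V × V)), (s.map fun q => q.1.size + q.2.size).sum ≤ n →
      ∀ B, 2 * n + 1 ≤ B → Runs step B s (s.all fun q => decide (q.1 = q.2)) (n + 1) := by
    have hsz : ∀ s : List (V × V), sz s ≤ 2 * (s.map fun q => q.1.size + q.2.size).sum + 1 := by
      intro s
      induction s with
      | nil => simp
      | cons q r ih =>
        have := q.1.size_pos
        have := q.2.size_pos
        simp only [sz_cons, sz_prod q, sz_V, List.map_cons, List.sum_cons]; omega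
    intro n
    induction n with
    | zero =>
      intro s hs B hB
      have := hsz s
      cases s with
      | nil => exact .stop _ (by simp; omega) rfl
      | cons q r => have := q.1.size_pos; simp at hs; omega
    | succ n ih =>
      intro s hs B hB
      have h0 := hsz s
      rcases s with _ | ⟨⟨x, y⟩, r⟩
      · exact .stop _ (by omega) rfl
      · rcases x with _ | ⟨x₁, x₂⟩ <;> rcases y with _ | ⟨y₁, y₂⟩
        · refine .next (by omega) (s' := r) (by simp [step]) ?_
          simpa using ih r (by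
            simp only [List.map_cons, List.sum_cons, V.size_nil] at hs; omega) B (by omega)
        · exact .stop _ (by omega) (by simp [step])
        · exact .stop _ (by omega) (by simp [step])
        · refine .next (by omega) (s' := (x₁, y₁) :: (x₂, y₂) :: r) (by simp [step]) ?_
          have := ih ((x₁, y₁) :: (x₂, y₂) :: r) (by simp at hs ⊢; omega) B (by omega)
          simpa [Bool.and_assoc] using this
  refine ⟨CD.loop (ini := fun p => [p]) (N := fun p => sz p + 1) (B := fun p => 2 * sz p + 1)
    (id'.cons (const [])).1 hs (Deg.sz_id.add (Deg.const 1)) ((Deg.sz_id.cmul 2).add (Deg.const 1))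
    (by omega) fun p => ?_, (Deg.const 3).mono fun _ => sz_bool_le _⟩
  simpa using key (sz p) [p] (by simp [sz_prod p]) _ le_rfl

@[fun_prop] theorem decide_eq {f g : α → β} (hf : LD (D + 1) f) (hg : LD (D + 1) g)
    [inst : ∀ a, Decidable (f a = g a)] : LD (D + 1) fun a => decide (f a = g a) :=
  (comp beqV (hf.enc'.pair hg.enc')).congr fun a => by simp [enc_inj]

@[fun_prop] theorem decide_mem {l : α → List β} {f : α → β} (hf : LD (D + 2) f) (hl : LD (D + 2) l)
    [inst : ∀ a, Decidable (f a ∈ l a)] : LD (D + 2) fun a => decide (f a ∈ l a) := by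
  classical
  have h : LD (D + 2) fun p : β × List β => p.2.any fun x => decide (p.1 = x) := by fun_prop
  exact (comp h (hf.pair hl)).congr fun a => by simp [List.any_eq]

end LD

/-- Drop as many entries of `l` as `m` has. -/
def dropLen {β γ : Type*} (l : List β) (m : List γ) : List β := l.drop m.length

/-- Comparison of lengths. -/
def lenLt {β γ : Type*} (l : List β) (m : List γ) : Bool := decide (l.length < m.length)

@[fun_prop] theorem LD.dropLen {l : α → List β} {m : α → List γ} (hl : LD (D + 1) l)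
    (hm : LD (D + 1) m) : LD (D + 1) fun a => dropLen (l a) (m a) := by
  refine (LD.foldl_add (h := fun _ s _ => s.tail) hm hl (by fun_prop) 0
    fun _ s _ => by simpa using sz_le_of_sublist (List.tail_sublist s)).congr fun a => ?_
  unfold R286.dropLen
  generalize l a = s
  induction m a generalizing s with
  | nil => rfl
  | cons x xs ih => simp [ih]

@[fun_prop] theorem LD.lenLt {l : α → List β} {m : α → List γ} (hl : LD (D + 1) l)
    (hm : LD (D + 1) m) : LD (D + 1) fun a => lenLt (l a) (m a) :=
  (hm.dropLen hl).isEmpty.not.congr fun a => by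
    by_cases h : (l a).length < (m a).length
    · simp [R286.dropLen, R286.lenLt, h]
    · simp [R286.dropLen, R286.lenLt, h, not_lt.1 h]

theorem CD.map {l : α → List β} {f : α → β → γ} (hl : LD D l)
    (hf : LD D fun p : α × β => f p.1 p.2) :
    CD (2 * D + 3) (fun a => (l a).map (f a)) ∧ Deg 2 fun a => sz ((l a).map (f a)) := by
  have hs : Deg 2 fun a => sz ((l a).map (f a)) := by
    obtain ⟨C, hC⟩ := hf.2
    refine ((hl.2.mul ((((Deg.sz_id.add hl.2).add (Deg.const 1)).cmul C).add (Deg.const 1))).add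
      (Deg.const 1)).mono fun a => ?_
    refine (sz_list_le (B := C * (sz a + sz (l a) + 1)) fun y hy => ?_).trans ?_
    · obtain ⟨x, hx, rfl⟩ := List.mem_map.1 hy
      have h1 := hC (a, x)
      have h2 := sz_le_of_mem hx
      simp only [sz_pair, pow_one] at h1
      exact h1.trans (Nat.mul_le_mul_left _ (by omega))
    · rw [List.length_map]
      exact Nat.add_le_add_right (Nat.mul_le_mul_right _ (length_le_sz (l a))) _
  have h1 : CD (2 * D + 3) fun a => (l a).foldl (fun s x => f a x :: s) [] := by
    refine CD.foldl (d := D) (hl.1.mono (by omega)) (LD.const _).1 ?_ hs (hl.2.up (by omega))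
      (by omega) (by omega) fun a l₁ h₁ => ?_
    · exact (hf.1.comp₁ (g := fun p : α × List γ × β => (p.1, p.2.2)) (by fun_prop)).cons
        (LD.fst (LD.snd LD.id')).1
    · simpa [LD.foldl_map_cons] using sz_le_of_sublist (h₁.sublist.map (f a))
  refine ⟨(CD.comp (d := 1) (LD.reverse LD.id').1 h1 (e := 2) (hs.mono fun a => ?_)
    (by omega)).congr fun a => by simp, hs⟩
  simp

/-- All pairs. -/
def prodL {β γ : Type*} (l : List β) (m : List γ) : List (β × γ) :=
  (l.map fun x => m.map fun y => (x, y)).flatten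

theorem mem_prodL {β γ : Type*} {l : List β} {m : List γ} {p : β × γ} :
    p ∈ prodL l m ↔ p.1 ∈ l ∧ p.2 ∈ m := by
  obtain ⟨x, y⟩ := p
  simp [prodL]

theorem sz_flatten_le (l : List (List β)) : sz l.flatten ≤ sz l := by
  induction l with
  | nil => simp
  | cons x xs ih =>
    have := sz_append x xs.flatten
    simp only [List.flatten_cons, sz_cons]
    omega

theorem sz_prodL (l : List β) (m : List γ) :
    sz (prodL l m) ≤ l.length * m.length * (sz l + sz m + 2) + 1 := by
  have hlen : (prodL l m).length = l.length * m.length := by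
    simp [prodL, Function.comp_def]
  rw [← hlen]
  refine sz_list_le fun p hp => ?_
  obtain ⟨h1, h2⟩ := mem_prodL.1 hp
  have := sz_le_of_mem h1
  have := sz_le_of_mem h2
  rw [sz_prod]
  omega

theorem cd_prodL : CD 20 fun p : List β × List γ => prodL p.1 p.2 := by
  have hs : Deg 3 fun p : List β × List γ => sz (prodL p.1 p.2) := by
    refine (((Deg.sz_id.mul Deg.sz_id).mul ((Deg.sz_id.cmul 2).add (Deg.const 2))).add
      (Deg.const 1)).mono fun p => (sz_prodL _ _).trans ?_
    have h1 := (length_le_sz p.1).trans (sz_fst_le p)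
    have h2 := (length_le_sz p.2).trans (sz_snd_le p)
    have h3 := sz_fst_le p
    have h4 := sz_snd_le p
    exact Nat.add_le_add_right (Nat.mul_le_mul (Nat.mul_le_mul h1 h2) (by omega)) _
  obtain ⟨h1, h2⟩ := CD.map (D := 0) (l := fun q : (List β × List γ) × List (β × γ) × β => q.1.2)
    (f := fun q y => (q.2.2, y)) (by fun_prop) (by fun_prop)
  have h3 : CD 3 fun q : (List β × List γ) × List (β × γ) × β =>
      q.2.1 ++ q.1.2.map fun y => (q.2.2, y) :=
    CD.comp (d := 1) (e := 2) (f := fun r : List (β × γ) × List (β × γ) => r.1 ++ r.2)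
      (LD.append (by fun_prop) (by fun_prop)).1 ((LD.fst (LD.snd LD.id')).1.pair h1)
      ((((LD.fst (D := 0) (LD.snd LD.id')).2.up (by omega)).add h2).add (Deg.const 1)) (by omega)
  have key : ∀ (m : List γ) (l : List β) (s : List (β × γ)),
      l.foldl (fun s x => s ++ m.map fun y => (x, y)) s = s ++ prodL l m := by
    intro m l
    induction l with
    | nil => simp [prodL]
    | cons x xs ih => intro s; simp [ih, prodL]
  refine (CD.foldl (l := fun p : List β × List γ => p.1) (g := fun _ => [])
    (h := fun p s x => s ++ p.2.map fun y => (x, y)) (LD.fst LD.id').1 (LD.const _).1 h3 hs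
    ((LD.fst (D := 0) LD.id').2.up (by omega)) (by omega) (by omega) fun p l₁ h₁ => ?_).congr
    fun p => by simp [key]
  rw [key, List.nil_append]
  obtain ⟨t, ht⟩ := h₁
  refine sz_le_of_sublist ?_
  rw [← ht]
  simp [prodL]

theorem LD.prodL {l : α → List β} {m : α → List γ} (hl : LD (D + 20) l) (hm : LD (D + 20) m)
    (hs : Deg 1 fun a => sz (prodL (l a) (m a))) : LD (D + 20) fun a => prodL (l a) (m a) :=
  ⟨(cd_prodL.mono (by omega)).comp₁ (hl.pair hm), hs⟩

end Crest.Agent.R286
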