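import Crest.Agent.R286.Alg
import Crest.Prelude.Def_Sched3

/-!
# Parsing, output and transitive closure
-/

set_option autoImplicit false

namespace Crest.Agent.R286

open Crest.Enc Crest.Sched3

/-- A number in unary. -/
def un (j : ℕ) : J := List.replicate j ()

@[simp] theorem length_un (j : ℕ) : (un j).length = j := List.length_replicate

theorem un_length (u : J) : un u.length = u := (List.eq_replicate_iff.2 ⟨rfl, fun _ _ => rfl⟩).symm

theorem J_ext {u v : J} (h : u.length = v.length) : u = v := by
  rw [← un_length u, h, un_length]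

theorem un_inj {i j : ℕ} (h : un i = un j) : i = j := by
  simpa using congrArg List.length h

theorem skip_aux {β : Type} (bs : List Bool) (w : List Bool) (l : List β) (h : bs.length ≤ l.length) :
    l.foldl (fun s _ => skip2 s) ((bs.map fun b => [true, b]).flatten ++ false :: w) =
      false :: w := by
  induction l generalizing bs with
  | nil =>
    have : bs = [] := by simpa using h
    simp [this]
  | cons a l ih =>
    cases bs with
    | nil => simpa [skip2] using ih [] (by simp)
    | cons b bs => simpa [skip2] using ih bs (by simpa using h)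

theorem tblOf_code (n : ℕ) (w : List Bool) : tblOf (natCode n ++ w) = w := by
  have h := skip_aux n.bits (false :: w) (natCode n ++ w) (by
    simp [natCode, Function.comp_def]; omega)
  have e : natCode n ++ w = (n.bits.map fun b => [true, b]).flatten ++ false :: false :: w := by
    simp [natCode]
  rw [tblOf]
  conv_lhs => rw [show List.foldl (fun s _ => skip2 s) (natCode n ++ w) (natCode n ++ w) = _ from
    (congrArg (fun t => List.foldl (fun s _ => skip2 s) t (natCode n ++ w)) e).trans h]
  rfl

theorem sq_aux {β : Type} (n : ℕ) (w : List Bool) (hw : w.length = n * n) (l : List β) (i : ℕ)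
    (hi : i ≤ n) (h : n ≤ i + l.length) :
    (l.foldl (fun st _ => sqStep st) (w.drop (i * i), un i)).2 = un n := by
  induction l generalizing i with
  | nil =>
    have : i = n := by simp at h; omega
    simp [this]
  | cons a l ih =>
    rw [List.foldl_cons]
    rcases hi.eq_or_lt with rfl | hlt
    · have h0 : sqStep (w.drop (i * i), un i) = (w.drop (i * i), un i) := by
        have : w.drop (i * i) = [] := List.drop_eq_nil_of_le hw.le
        simp [sqStep, this]
      rw [h0]
      exact ih i le_rfl (by omega)
    · have h1 : i * i < n * n := Nat.mul_self_lt_mul_self hlt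
      have h0 : sqStep (w.drop (i * i), un i) = (w.drop ((i + 1) * (i + 1)), un (i + 1)) := by
        have : (w.drop (i * i)).isEmpty = false := by
          simp [hw, h1]
        simp only [sqStep, this, cond_false, dropLen, List.drop_drop, List.length_cons,
          List.length_append, length_un]
        congr 2
        ring
      rw [h0]
      exact ih (i + 1) hlt (by simp at h; omega)

theorem sqrtU_eq (n : ℕ) (w : List Bool) (hw : w.length = n * n) : sqrtU w = un n := by
  simpa [sqrtU, un] using sq_aux n w hw w 0 (Nat.zero_le _) (by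
    rw [hw, Nat.zero_add]; exact Nat.le_mul_self n)

theorem mem_rangeU {N u : J} : u ∈ rangeU N ↔ u.length < N.length := by
  rw [rangeU_eq, List.mem_map]
  constructor
  · rintro ⟨j, hj, rfl⟩
    simpa using hj
  · intro h
    exact ⟨u.length, List.mem_range.2 h, un_length u⟩

theorem nodup_rangeU (N : J) : (rangeU N).Nodup := by
  rw [rangeU_eq]
  exact List.nodup_range.map fun i j h => un_inj h

theorem length_rangeU (N : J) : (rangeU N).length = N.length := by simp [rangeU_eq]

theorem rangeU_un (n : ℕ) : rangeU (un n) = (List.finRange n).map fun u : Fin n => un u := by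
  rw [rangeU_eq, length_un, ← List.map_coe_finRange_eq_range, List.map_map]
  rfl

theorem incC_bits (n : ℕ) : incC true n.bits = (n + 1).bits := by
  induction n using Nat.binaryRec' with
  | zero => rfl
  | bit b m h ih =>
    rw [Nat.bits_append_bit m b h]
    cases b with
    | false =>
      have : Nat.bit false m + 1 = Nat.bit true m := by simp [Nat.bit_val]
      rw [this, Nat.bits_append_bit m true (by simp)]
      simp [incC, incC_false]
    | true =>
      have : Nat.bit true m + 1 = Nat.bit false (m + 1) := by simp [Nat.bit_val]; ring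
      rw [this, Nat.bits_append_bit (m + 1) false (by simp)]
      simp [incC, ih]

theorem codeU_eq (u : J) : codeU u = natCode u.length := by
  have key : ∀ (u : J) (m : ℕ), u.foldl (fun s _ => incC true s) m.bits = (m + u.length).bits := by
    intro u
    induction u with
    | nil => simp
    | cons a u ih => intro m; rw [List.foldl_cons, incC_bits, ih]; simp [Nat.add_assoc, Nat.add_comm 1]
  have := key u 0
  rw [Nat.zero_bits, Nat.zero_add] at this
  rw [codeU, this, natCode]

theorem length_slotU (s : List (List J)) (v : J) (hv : v ∈ s.flatten) :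
    (slotU s v).length = s.findIdx (fun T => decide (v ∈ T)) + 1 := by
  have k1 : ∀ (s : List (List J)) (c : J), s.foldl (fun (st : Bool × J) T =>
      bif st.1 then st else (decide (v ∈ T), () :: st.2)) (true, c) = (true, c) := by
    intro s c
    induction s with
    | nil => rfl
    | cons T s ih => simpa using ih
  have k2 : ∀ (s : List (List J)) (c : J), v ∈ s.flatten → (s.foldl (fun (st : Bool × J) T =>
      bif st.1 then st else (decide (v ∈ T), () :: st.2)) (false, c)).2.length =
        c.length + s.findIdx (fun T => decide (v ∈ T)) + 1 := by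
    intro s
    induction s with
    | nil => simp
    | cons T s ih =>
      intro c hv
      rw [List.foldl_cons, List.findIdx_cons]
      by_cases hT : v ∈ T
      · simp only [hT, cond_false, decide_true, k1]
        simp
      · have hs : v ∈ s.flatten := by simpa [hT] using hv
        simp only [hT, cond_false, decide_false, ih _ hs]
        simp; omega
  simpa [slotU] using k2 s [] hv

section code
variable {n : ℕ} (E : Fin n → Fin n → Bool)

theorem tblOf_prec : tblOf (precCode n E) =
    (prodL (List.finRange n) (List.finRange n)).map fun q => E q.1 q.2 := by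
  rw [precCode, tblOf_code]
  simp [prodL, List.map_flatten, Function.comp_def]

theorem nOf_prec : nOf (precCode n E) = un n :=
  sqrtU_eq n _ (by simp [tblOf_prec, length_prodL])

theorem VOf_prec : VOf (precCode n E) = (List.finRange n).map fun u : Fin n => un u := by
  rw [VOf, nOf_prec, rangeU_un]

theorem mem_edges_prec {p : J × J} :
    p ∈ edges (prodL (VOf (precCode n E)) (VOf (precCode n E))) (tblOf (precCode n E)) ↔
      ∃ u v : Fin n, p = (un u, un v) ∧ E u v = true := by
  have e : prodL (VOf (precCode n E)) (VOf (precCode n E)) =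
      (prodL (List.finRange n) (List.finRange n)).map fun q => (un q.1, un q.2) := by
    simp [VOf_prec, prodL, List.map_flatten, Function.comp_def]
  rw [e, tblOf_prec, edges, List.zip_map']
  simp only [List.mem_map, List.mem_filter, mem_prodL, List.mem_finRange, and_self, true_and]
  constructor
  · rintro ⟨_, ⟨⟨q, rfl⟩, h⟩, rfl⟩
    exact ⟨q.1, q.2, rfl, h⟩
  · rintro ⟨u, v, rfl, h⟩
    exact ⟨_, ⟨⟨(u, v), rfl⟩, h⟩, rfl⟩

end code

theorem closure_spec (V : List J) (R₀ : List (J × J)) (h₀ : ∀ p ∈ R₀, p ∈ prodL V V) (Z : List J) :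
    (∀ p ∈ R₀, p ∈ closure Z (prodL V V) R₀) ∧
      (∀ p ∈ closure Z (prodL V V) R₀, p ∈ prodL V V ∧
        Relation.TransGen (fun a b => (a, b) ∈ R₀) p.1 p.2) ∧
      ∀ z ∈ Z, ∀ x y, (x, z) ∈ closure Z (prodL V V) R₀ → (z, y) ∈ closure Z (prodL V V) R₀ →
        (x, y) ∈ closure Z (prodL V V) R₀ := by
  induction Z using List.reverseRecOn with
  | nil => exact ⟨fun p hp => hp, fun p hp => ⟨h₀ p hp, .single hp⟩, by simp⟩
  | append_singleton Z w ih =>
    obtain ⟨h1, h2, h3⟩ := ih
    have hm : ∀ p, p ∈ closure (Z ++ [w]) (prodL V V) R₀ ↔ p ∈ prodL V V ∧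
        (p ∈ closure Z (prodL V V) R₀ ∨ ((p.1, w) ∈ closure Z (prodL V V) R₀ ∧
          (w, p.2) ∈ closure Z (prodL V V) R₀)) := by
      intro p
      simp [closure, List.foldl_append, wStep]
    refine ⟨fun p hp => (hm p).2 ⟨h₀ p hp, Or.inl (h1 p hp)⟩, fun p hp => ?_, ?_⟩
    · obtain ⟨h4, h5 | ⟨h5, h6⟩⟩ := (hm p).1 hp
      · exact h2 p h5
      · exact ⟨h4, (h2 _ h5).2.trans (h2 _ h6).2⟩
    · intro z hz x y hx hy
      obtain ⟨h4, h5⟩ := (hm _).1 hx
      obtain ⟨h6, h7⟩ := (hm _).1 hy
      refine (hm _).2 ⟨mem_prodL.2 ⟨(mem_prodL.1 h4).1, (mem_prodL.1 h6).2⟩, ?_⟩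
      rcases List.mem_append.1 hz with hz | hz
      · rcases h5 with h5 | h5 <;> rcases h7 with h7 | h7
        · exact Or.inl (h3 z hz x y h5 h7)
        · exact Or.inr ⟨h3 z hz x w h5 h7.1, h7.2⟩
        · exact Or.inr ⟨h5.1, h3 z hz w y h5.2 h7⟩
        · exact Or.inr ⟨h5.1, h7.2⟩
      · obtain rfl : z = w := by simpa using hz
        exact Or.inr ⟨h5.elim id fun h => h.1, h7.elim id fun h => h.2⟩

/-- The computed relation is the transitive closure of the table. -/
theorem ROf_spec {n : ℕ} (E : Fin n → Fin n → Bool) :
    (∀ u v, E u v = true → (un u, un v) ∈ ROf (precCode n E)) ∧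
      (∀ x y, (x, y) ∈ ROf (precCode n E) → ∃ u v : Fin n, x = un u ∧ y = un v ∧
        Relation.TransGen (fun a b => E a b = true) u v) ∧
      ∀ x y z, (x, y) ∈ ROf (precCode n E) → (y, z) ∈ ROf (precCode n E) →
        (x, z) ∈ ROf (precCode n E) := by
  obtain ⟨h1, h2, h3⟩ := closure_spec (VOf (precCode n E)) _ (fun p hp => by
    obtain ⟨u, v, rfl, -⟩ := (mem_edges_prec E).1 hp
    simp only [mem_prodL, VOf_prec, List.mem_map, List.mem_finRange, true_and]
    exact ⟨⟨u, rfl⟩, v, rfl⟩) (VOf (precCode n E))
  refine ⟨fun u v h => h1 _ ((mem_edges_prec E).2 ⟨u, v, rfl, h⟩), fun x y h => ?_,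
    fun x y z hxy hyz => h3 y (mem_prodL.1 (h2 _ hxy).1).2 x z hxy hyz⟩
  have h4 : Relation.TransGen _ x y := (h2 _ h).2
  clear h
  induction h4 with
  | single h =>
    obtain ⟨u, v, e, h'⟩ := (mem_edges_prec E).1 h
    obtain ⟨rfl, rfl⟩ := Prod.mk.inj e
    exact ⟨u, v, rfl, rfl, .single h'⟩
  | tail _ h ih =>
    obtain ⟨u, v, rfl, rfl, h5⟩ := ih
    obtain ⟨u', v', e, h'⟩ := (mem_edges_prec E).1 h
    obtain ⟨e1, rfl⟩ := Prod.mk.inj e
    obtain rfl : v = u' := Fin.ext (un_inj e1)
    exact ⟨u, v', rfl, rfl, h5.tail h'⟩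

end Crest.Agent.R286
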