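import Mathlib

/-!
# Perfect three-machine schedules of finite sets: the splitting lemma
-/

set_option autoImplicit false

namespace Crest.Agent.R286

variable {α : Type*} [DecidableEq α]

/-- Perfect schedules (every slot holds exactly three jobs) built by concatenation, all sets met
on the way lying in the family `F`. -/
inductive SchIn (r : α → α → Prop) (F : Finset α → Prop) : Finset α → Prop
  | empty : SchIn r F ∅
  | triple (T : Finset α) : T.card = 3 → (∀ x ∈ T, ∀ y ∈ T, ¬ r x y) → F T → SchIn r F T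
  | cat (A B : Finset α) : SchIn r F A → SchIn r F B → Disjoint A B →
      (∀ a ∈ A, ∀ b ∈ B, ¬ r b a) → F (A ∪ B) → SchIn r F (A ∪ B)

/-- `S` has a perfect schedule. -/
def Sch (r : α → α → Prop) (S : Finset α) : Prop := SchIn r (fun _ => True) S

variable {r : α → α → Prop}

theorem SchIn.swap {F : Finset α → Prop} {S : Finset α} (h : SchIn r F S) :
    SchIn (fun x y => r y x) F S := by
  induction h with
  | empty => exact .empty
  | triple T h1 h2 h3 => exact .triple T h1 (fun x hx y hy => h2 y hy x hx) h3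
  | cat A B _ _ hd ho hF ihA ihB =>
    rw [Finset.union_comm] at hF ⊢
    exact .cat B A ihB ihA hd.symm (fun b hb a ha => ho a ha b hb) hF

theorem Sch.swap {S : Finset α} (h : Sch r S) : Sch (fun x y => r y x) S := SchIn.swap h

theorem Sch.empty : Sch r ∅ := SchIn.empty

theorem Sch.triple {T : Finset α} (h1 : T.card = 3) (h2 : ∀ x ∈ T, ∀ y ∈ T, ¬ r x y) :
    Sch r T := SchIn.triple T h1 h2 trivial

theorem Sch.cat {A B : Finset α} (hA : Sch r A) (hB : Sch r B) (hd : Disjoint A B)
    (ho : ∀ a ∈ A, ∀ b ∈ B, ¬ r b a) : Sch r (A ∪ B) := SchIn.cat A B hA hB hd ho trivial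

/-- `T` can serve as the first slot of a perfect schedule of `S`. -/
def First (r : α → α → Prop) (S T : Finset α) : Prop :=
  T ⊆ S ∧ T.card = 3 ∧ (∀ x ∈ S, ∀ t ∈ T, ¬ r x t) ∧ Sch r (S \ T)

theorem Sch.peel {S : Finset α} (h : Sch r S) (hS : S.Nonempty) : ∃ T, First r S T := by
  unfold Sch at h
  induction h with
  | empty => simp at hS
  | triple T h1 h2 _ => exact ⟨T, subset_rfl, h1, h2, by simpa using Sch.empty⟩
  | cat A B hA hB hd ho _ ihA ihB =>
    rcases A.eq_empty_or_nonempty with rfl | hne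
    · simpa using ihB (by simpa using hS)
    · obtain ⟨T, h1, h2, h3, h4⟩ := ihA hne
      refine ⟨T, h1.trans Finset.subset_union_left, h2, fun x hx t ht => ?_, ?_⟩
      · rcases Finset.mem_union.1 hx with hx | hx
        · exact h3 x hx t ht
        · exact ho t (h1 ht) x hx
      · have e : (A ∪ B) \ T = (A \ T) ∪ B := by
          rw [Finset.union_sdiff_distrib,
            Finset.sdiff_eq_self_of_disjoint (hd.symm.mono_right h1)]
        rw [e]
        exact h4.cat hB (hd.mono_left Finset.sdiff_subset)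
          fun a ha b hb => ho a (Finset.mem_sdiff.1 ha).1 b hb

theorem Sch.exchange {A : Finset α} {y w : α} (h : Sch r A) (hy : y ∈ A) (hw : w ∉ A)
    (hww : ¬ r w w) (hiso : ∀ x ∈ A, ¬ r x w ∧ ¬ r w x) : Sch r (insert w (A.erase y)) := by
  unfold Sch at h
  induction h with
  | empty => simp at hy
  | triple T h1 h2 _ =>
    refine Sch.triple ?_ fun a ha b hb => ?_
    · rw [Finset.card_insert_of_notMem (fun h => hw (Finset.mem_of_mem_erase h)),
        Finset.card_erase_of_mem hy, h1]
    · rcases Finset.mem_insert.1 ha with ha' | ha' <;> rcases Finset.mem_insert.1 hb with hb' | hb'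
      · rw [ha', hb']; exact hww
      · rw [ha']; exact (hiso b (Finset.mem_of_mem_erase hb')).2
      · rw [hb']; exact (hiso a (Finset.mem_of_mem_erase ha')).1
      · exact h2 a (Finset.mem_of_mem_erase ha') b (Finset.mem_of_mem_erase hb')
  | cat A B hA hB hd ho _ ihA ihB =>
    have hwA : w ∉ A := fun h => hw (Finset.mem_union_left _ h)
    have hwB : w ∉ B := fun h => hw (Finset.mem_union_right _ h)
    rcases Finset.mem_union.1 hy with hyA | hyB
    · have e : insert w ((A ∪ B).erase y) = insert w (A.erase y) ∪ B := by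
        rw [Finset.erase_union_distrib,
          Finset.erase_eq_of_notMem (Finset.disjoint_left.1 hd hyA), Finset.insert_union]
      rw [e]
      refine Sch.cat (ihA hyA hwA fun x hx => hiso x (Finset.mem_union_left _ hx)) hB ?_ ?_
      · rw [Finset.disjoint_insert_left]
        exact ⟨hwB, hd.mono_left (Finset.erase_subset _ _)⟩
      · intro a ha b hb
        rcases Finset.mem_insert.1 ha with rfl | ha
        · exact (hiso b (Finset.mem_union_right _ hb)).1
        · exact ho a (Finset.mem_of_mem_erase ha) b hb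
    · have e : insert w ((A ∪ B).erase y) = A ∪ insert w (B.erase y) := by
        rw [Finset.erase_union_distrib,
          Finset.erase_eq_of_notMem (Finset.disjoint_right.1 hd hyB), Finset.union_insert]
      rw [e]
      refine Sch.cat hA (ihB hyB hwB fun x hx => hiso x (Finset.mem_union_right _ hx)) ?_ ?_
      · rw [Finset.disjoint_insert_right]
        exact ⟨hwA, hd.mono_right (Finset.erase_subset _ _)⟩
      · intro a ha b hb
        rcases Finset.mem_insert.1 hb with rfl | hb
        · exact (hiso a (Finset.mem_union_left _ ha)).2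
        · exact ho a ha b (Finset.mem_of_mem_erase hb)

/-- No schedule of `S` placed after the slot `Z` allows an exchange that lowers the weight of
`Z`. -/
def Star (r : α → α → Prop) (c : α → ℤ) (Z S : Finset α) : Prop :=
  ∀ A B : Finset α, A ∪ B = S → Disjoint A B → Sch r A → Sch r B → (∀ a ∈ A, ∀ b ∈ B, ¬ r b a) →
    ∀ w ∈ Z, (∀ a ∈ A, ¬ r w a) → ∀ y ∈ A, c y < c w → ∃ z ∈ Z, r z y

theorem Star.empty (c : α → ℤ) (S : Finset α) : Star r c ∅ S := by
  intro A B _ _ _ _ _ w hw
  simp at hw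

theorem Star.prefix {c : α → ℤ} {Z A B : Finset α} (h : Star r c Z (A ∪ B)) (hd : Disjoint A B)
    (hB : Sch r B) (ho : ∀ a ∈ A, ∀ b ∈ B, ¬ r b a) : Star r c Z A := by
  rintro A' B' rfl hd' hA' hB' ho'
  refine h A' (B' ∪ B) (Finset.union_assoc _ _ _).symm ?_ hA' ?_ ?_
  · rw [Finset.disjoint_union_right]
    exact ⟨hd', hd.mono_left Finset.subset_union_left⟩
  · exact hB'.cat hB (hd.mono_left Finset.subset_union_right)
      fun a ha b hb => ho a (Finset.mem_union_right _ ha) b hb
  · intro a ha b hb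
    rcases Finset.mem_union.1 hb with hb | hb
    · exact ho' a ha b hb
    · exact ho a (Finset.mem_union_left _ ha) b hb

theorem exists_first (htr : ∀ x y z, r x y → r y z → r x z) (hirr : ∀ x, ¬ r x x) {c : α → ℤ}
    {S : Finset α} (hc : ∀ x y, r x y → c x ≤ c y) (h : Sch r S) (hS : S.Nonempty) :
    ∃ T, First r S T ∧ Star r c T (S \ T) := by
  classical
  obtain ⟨T₀, hT₀⟩ := h.peel hS
  obtain ⟨T, hT, hmin⟩ := Finset.exists_min_image (S.powerset.filter (First r S))
    (fun T => ∑ x ∈ T, c x) ⟨T₀, by simpa using ⟨hT₀.1, hT₀⟩⟩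
  obtain ⟨hTS, hT3, hsrc, hsch⟩ := (Finset.mem_filter.1 hT).2
  refine ⟨T, ⟨hTS, hT3, hsrc, hsch⟩, fun A B e hd hA hB ho w hw hwA => ?_⟩
  have hAS : A ⊆ S \ T := e ▸ Finset.subset_union_left
  have hBS : B ⊆ S \ T := e ▸ Finset.subset_union_right
  suffices H : ∀ (k : ℕ) (y : α), y ∈ A → (A.filter fun x => r x y).card < k → c y < c w →
      ∃ z ∈ T, r z y from fun y hy => H _ y hy (Nat.lt_succ_self _)
  intro k
  induction k with
  | zero => intro y _ h; omega
  | succ k ih =>
    intro y hy hk hyw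
    by_contra hne
    have hyT : y ∉ T := (Finset.mem_sdiff.1 (hAS hy)).2
    have hyS : y ∈ S := (Finset.mem_sdiff.1 (hAS hy)).1
    have hnp : ∀ x ∈ S, ¬ r x y := by
      intro x hx hxy
      by_cases hxT : x ∈ T
      · exact hne ⟨x, hxT, hxy⟩
      · have hx' : x ∈ A ∪ B := e ▸ Finset.mem_sdiff.2 ⟨hx, hxT⟩
        rcases Finset.mem_union.1 hx' with hxA | hxB
        · have hlt : (A.filter fun u => r u x).card < (A.filter fun u => r u y).card := by
            refine Finset.card_lt_card ⟨fun u hu => ?_, fun hh => ?_⟩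
            · rw [Finset.mem_filter] at hu ⊢
              exact ⟨hu.1, htr _ _ _ hu.2 hxy⟩
            · exact hirr x (Finset.mem_filter.1 (hh (Finset.mem_filter.2 ⟨hxA, hxy⟩))).2
          obtain ⟨z, hz, hzx⟩ := ih x hxA (by omega) ((hc x y hxy).trans_lt hyw)
          exact hne ⟨z, hz, htr _ _ _ hzx hxy⟩
        · exact ho y hy x hxB hxy
    have hwA' : w ∉ A := fun h => (Finset.mem_sdiff.1 (hAS h)).2 hw
    have hwB' : w ∉ B := fun h => (Finset.mem_sdiff.1 (hBS h)).2 hw
    have hF : First r S (insert y (T.erase w)) := by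
      refine ⟨Finset.insert_subset hyS ((Finset.erase_subset _ _).trans hTS), ?_, ?_, ?_⟩
      · rw [Finset.card_insert_of_notMem (fun h => hyT (Finset.mem_of_mem_erase h)),
          Finset.card_erase_of_mem hw, hT3]
      · intro x hx t ht
        rcases Finset.mem_insert.1 ht with rfl | ht
        · exact hnp x hx
        · exact hsrc x hx t (Finset.mem_of_mem_erase ht)
      · have e' : S \ insert y (T.erase w) = insert w (A.erase y) ∪ B := by
          ext x
          have h1 : x ∈ A ∨ x ∈ B ↔ x ∈ S ∧ x ∉ T := by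
            rw [← Finset.mem_union, e, Finset.mem_sdiff]
          have h2 : y ∉ B := Finset.disjoint_left.1 hd hy
          have h3 : w ∈ S := hTS hw
          simp only [Finset.mem_sdiff, Finset.mem_insert, Finset.mem_erase, Finset.mem_union]
          by_cases hxw : x = w
          · subst hxw
            have : x ≠ y := fun h => hyT (h ▸ hw)
            tauto
          · by_cases hxy : x = y
            · subst hxy; tauto
            · tauto
        rw [e']
        refine Sch.cat (hA.exchange hy hwA' (hirr w) fun x hx => ⟨?_, hwA x hx⟩) hB ?_ ?_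
        · exact hsrc x (Finset.mem_sdiff.1 (hAS hx)).1 w hw
        · rw [Finset.disjoint_insert_left]
          exact ⟨hwB', hd.mono_left (Finset.erase_subset _ _)⟩
        · intro a ha b hb
          rcases Finset.mem_insert.1 ha with rfl | ha
          · exact hsrc b (Finset.mem_sdiff.1 (hBS hb)).1 a hw
          · exact ho a (Finset.mem_of_mem_erase ha) b hb
    have h1 := hmin _ (Finset.mem_filter.2 ⟨Finset.mem_powerset.2 hF.1, hF⟩)
    have h2 := Finset.add_sum_erase T c hw
    rw [Finset.sum_insert (fun h => hyT (Finset.mem_of_mem_erase h))] at h1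
    omega

/-- `S` is scheduled as `G`, then the slot `T`, then `S'`. -/
structure Split (r : α → α → Prop) (S G T S' : Finset α) : Prop where
  eq : G ∪ T ∪ S' = S
  dGT : Disjoint G T
  dGS : Disjoint G S'
  dTS : Disjoint T S'
  card : T.card = 3
  anti : ∀ x ∈ T, ∀ y ∈ T, ¬ r x y
  oGT : ∀ a ∈ G, ∀ b ∈ T, ¬ r b a
  oGS : ∀ a ∈ G, ∀ b ∈ S', ¬ r b a
  oTS : ∀ a ∈ T, ∀ b ∈ S', ¬ r b a
  schG : Sch r G
  schS : Sch r S'

theorem Split.mem {S G T S' : Finset α} (h : Split r S G T S') (x : α) :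
    x ∈ S ↔ x ∈ G ∨ x ∈ T ∨ x ∈ S' := by
  rw [← h.eq, Finset.mem_union, Finset.mem_union, or_assoc]

theorem Split.schGT {S G T S' : Finset α} (h : Split r S G T S') : Sch r (G ∪ T) :=
  h.schG.cat (Sch.triple h.card h.anti) h.dGT h.oGT

theorem Split.schTS {S G T S' : Finset α} (h : Split r S G T S') : Sch r (T ∪ S') :=
  (Sch.triple h.card h.anti).cat h.schS h.dTS h.oTS

theorem Split.dGTS {S G T S' : Finset α} (h : Split r S G T S') : Disjoint (G ∪ T) S' :=
  Finset.disjoint_union_left.2 ⟨h.dGS, h.dTS⟩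

theorem Split.oGTS {S G T S' : Finset α} (h : Split r S G T S') :
    ∀ a ∈ G ∪ T, ∀ b ∈ S', ¬ r b a := fun a ha b hb =>
  (Finset.mem_union.1 ha).elim (fun ha => h.oGS a ha b hb) fun ha => h.oTS a ha b hb

theorem Split.star_left {c : α → ℤ} {Z S G T S' : Finset α} (h : Split r S G T S')
    (hs : Star r c Z S) : Star r c Z G := by
  rw [← h.eq, Finset.union_assoc] at hs
  exact hs.prefix (Finset.disjoint_union_right.2 ⟨h.dGT, h.dGS⟩) h.schTS fun a ha b hb =>
    (Finset.mem_union.1 hb).elim (fun hb => h.oGT a ha b hb) fun hb => h.oGS a ha b hb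

theorem Split.card_eq {S G T S' : Finset α} (h : Split r S G T S') :
    S.card = G.card + 3 + S'.card := by
  rw [← h.eq, Finset.card_union_of_disjoint h.dGTS, Finset.card_union_of_disjoint h.dGT, h.card]

/-- If a job `w` of the slot `Z` before `S` of weight above `θ` does not precede the clean slot
`T`, all jobs of `S` of weight at most `θ` succeed `Z`. -/
theorem Split.low_succ (htr : ∀ x y z, r x y → r y z → r x z) {c : α → ℤ}
    (hc : ∀ x y, r x y → c x ≤ c y) {θ : ℤ} {Z S G T S' : Finset α} (h : Split r S G T S')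
    (hs : Star r c Z S) (hlow : ∀ y ∈ S', c y ≤ θ → ∃ t ∈ T, r t y)
    (hhigh : ∀ x ∈ G, θ < c x → ∃ t ∈ T, r x t) {w : α} (hw : w ∈ Z) (hθ : θ < c w)
    (hwT : ¬ ∃ t ∈ T, r w t) : ∀ y ∈ S, c y ≤ θ → ∃ z ∈ Z, r z y := by
  have key := hs (G ∪ T) S' h.eq h.dGTS h.schGT h.schS h.oGTS w hw fun a ha hwa => by
    rcases Finset.mem_union.1 ha with ha | ha
    · obtain ⟨t, ht, hat⟩ := hhigh a ha (hθ.trans_le (hc _ _ hwa))
      exact hwT ⟨t, ht, htr _ _ _ hwa hat⟩
    · exact hwT ⟨a, ha, hwa⟩
  intro y hy hyθ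
  rcases (h.mem y).1 hy with hy | hy | hy
  · exact key y (Finset.mem_union_left _ hy) (hyθ.trans_lt hθ)
  · exact key y (Finset.mem_union_right _ hy) (hyθ.trans_lt hθ)
  · obtain ⟨t, ht, hty⟩ := hlow y hy hyθ
    obtain ⟨z, hz, hzt⟩ := key t (Finset.mem_union_right _ ht)
      (((hc _ _ hty).trans hyθ).trans_lt hθ)
    exact ⟨z, hz, htr _ _ _ hzt hty⟩

/-- The clean-slot lemma. -/
theorem exists_split (htr : ∀ x y z, r x y → r y z → r x z) (hirr : ∀ x, ¬ r x x) {c : α → ℤ}
    (hc : ∀ x y, r x y → c x ≤ c y) (θ : ℤ) {S : Finset α} (h : Sch r S) (hS : S.Nonempty) :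
    ∃ G T S', Split r S G T S' ∧ (∀ y ∈ S', c y ≤ θ → ∃ t ∈ T, r t y) ∧
      (∀ x ∈ G, θ < c x → ∃ t ∈ T, r x t) ∧ Star r c T S' := by
  induction S using Finset.strongInduction with
  | H S ih =>
  obtain ⟨T₁, ⟨hTS, hT3, hsrc, hsch⟩, hstar⟩ := exists_first htr hirr hc h hS
  by_cases hlow : ∀ y ∈ S \ T₁, c y ≤ θ → ∃ t ∈ T₁, r t y
  · refine ⟨∅, T₁, S \ T₁, ⟨by simpa using hTS, by simp, by simp, Finset.disjoint_sdiff, hT3,
      fun x hx y hy => hsrc x (hTS hx) y hy, by simp, by simp,
      fun a ha b hb => hsrc b (Finset.mem_sdiff.1 hb).1 a ha, Sch.empty, hsch⟩, hlow, by simp,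
      hstar⟩
  · have hne : (S \ T₁).Nonempty := by
      rw [Finset.nonempty_iff_ne_empty]
      intro h0
      exact hlow (by simp [h0])
    have hT₁ : T₁.Nonempty := Finset.card_pos.1 (by omega)
    obtain ⟨G, T, S', hsp, h1, h2, h3⟩ :=
      ih (S \ T₁) (Finset.sdiff_ssubset hTS hT₁) hsch hne
    have hG : ∀ x ∈ G, x ∈ S ∧ x ∉ T₁ := fun x hx =>
      Finset.mem_sdiff.1 ((hsp.mem x).2 (Or.inl hx))
    have hT : ∀ x ∈ T, x ∈ S ∧ x ∉ T₁ := fun x hx =>
      Finset.mem_sdiff.1 ((hsp.mem x).2 (Or.inr (Or.inl hx)))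
    have hS' : ∀ x ∈ S', x ∈ S ∧ x ∉ T₁ := fun x hx =>
      Finset.mem_sdiff.1 ((hsp.mem x).2 (Or.inr (Or.inr hx)))
    refine ⟨T₁ ∪ G, T, S', ⟨?_, ?_, ?_, hsp.dTS, hsp.card, hsp.anti, ?_, ?_, hsp.oTS, ?_,
      hsp.schS⟩, h1, ?_, h3⟩
    · rw [Finset.union_assoc T₁, Finset.union_assoc T₁, hsp.eq, Finset.union_sdiff_of_subset hTS]
    · exact Finset.disjoint_union_left.2
        ⟨Finset.disjoint_right.2 fun x hx => (hT x hx).2, hsp.dGT⟩
    · exact Finset.disjoint_union_left.2
        ⟨Finset.disjoint_right.2 fun x hx => (hS' x hx).2, hsp.dGS⟩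
    · intro a ha b hb
      rcases Finset.mem_union.1 ha with ha | ha
      · exact hsrc b (hT b hb).1 a ha
      · exact hsp.oGT a ha b hb
    · intro a ha b hb
      rcases Finset.mem_union.1 ha with ha | ha
      · exact hsrc b (hS' b hb).1 a ha
      · exact hsp.oGS a ha b hb
    · exact (Sch.triple hT3 fun x hx y hy => hsrc x (hTS hx) y hy).cat hsp.schG
        (Finset.disjoint_right.2 fun x hx => (hG x hx).2) fun a ha b hb => hsrc b (hG b hb).1 a ha
    · intro w hw hθ
      rcases Finset.mem_union.1 hw with hw | hw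
      · by_contra hwT
        exact hlow (hsp.low_succ htr hc hstar h1 h2 hw hθ hwT)
      · exact h2 w hw hθ

end Crest.Agent.R286
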